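import Vale.Agent.P317.Defs
import Vale.Agent.P337.TCx

/-! The algorithm as a machine folding over the oracle answers; polynomial running time. -/

namespace Vale.Agent.P317

open Vale.Agent.Common.TreeTM Vale.Agent.P337

section tc

variable {α β : Type} [Enc α] [Enc β] {e : ℕ}

@[fun_prop] theorem tc_drop {l : α → List β} {k : α → ℕ} (hl : TC e l) (hk : TC e k) :
    TC e fun a => (l a).drop (k a) := by
  have : TC e fun a => ((l a).reverse.take ((l a).length - k a)).reverse := by fun_prop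
  exact this.of_eq fun a => by rw [← List.reverse_drop, List.reverse_reverse]

@[fun_prop] theorem tc_filter {f : α → β → Bool} {l : α → List β}
    (hf : TC e fun p : α × β => f p.1 p.2) (hl : TC e l) : TC e fun a => (l a).filter (f a) := by
  have : TC e fun a => (l a).flatMap fun x => bif f a x then [x] else [] := by fun_prop
  refine this.of_eq fun a => ?_
  induction l a with
  | nil => rfl
  | cons x t ih => rw [List.filter_cons, List.flatMap_cons, ih]; cases f a x <;> rfl

@[fun_prop] theorem tc_countP {f : α → β → Bool} {l : α → List β}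
    (hf : TC e fun p : α × β => f p.1 p.2) (hl : TC e l) : TC e fun a => (l a).countP (f a) :=
  (TC.length (tc_filter hf hl)).of_eq fun _ => List.countP_eq_length_filter

@[fun_prop] theorem tc_pow {f : α → ℕ} (k : ℕ) (hf : TC e f) : TC e fun a => f a ^ k :=
  (tc_powLen hf (TC.const (List.replicate k true))).of_eq fun _ => by simp

@[fun_prop] theorem tc_prod {l : α → List ℕ} (hl : TC e l) : TC e fun a => (l a).prod := by
  refine (TC.foldl_inv (f := fun _ acc (x : ℕ) => acc * x) (i := fun _ => 1)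
    (by fun_prop) (by fun_prop) hl (S := fun a => 4 * (sz (l a) * sz (l a) + 1) + 1)
    (((Bd.const _ _).mul ((hl.bd.mul hl.bd).add (Bd.const _ _))).add (Bd.const _ _))
    (fun a k s => s ≤ 2 ^ (k * sz (l a))) (fun _ => by simp) ?_ ?_).of_eq fun a => ?_
  · intro a k s x hx h
    rw [Nat.succ_mul, pow_add]
    exact Nat.mul_le_mul h ((lt_two_pow_sz x).le.trans (Nat.pow_le_pow_right (by norm_num) (sz_mem hx)))
  · intro a k s hk h
    exact sz_nat_le (h.trans_lt (Nat.pow_lt_pow_right (by norm_num)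
      (Nat.lt_succ_of_le (Nat.mul_le_mul_right _ (hk.trans (length_le_sz _))))))
  · rw [List.prod_eq_foldl]

end tc

/-- Parameters: the size, the accuracy parameter, a long list. -/
abbrev Par : Type := ℕ × ℕ × List Bool
/-- Start point, samples, penalised positions, factors, finished flag. -/
abbrev St : Type := List Bool × List (List Bool) × List ℕ × List ℕ × Bool

def rg (p : Par) (k : ℕ) : List ℕ := idx (p.2.2.take k)
def LL (p : Par) : ℕ := p.1.bits.length + 5
def gb (l : List Bool) (k : ℕ) : Bool := l.getD k false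
def pin (P j k : ℕ) : ℕ := P ^ 2 - (j - k * P ^ 2)
def ci (p : Par) (s : St) (j k : ℕ) : ℕ :=
  (bif gb s.1 k then 0 else pin p.2.1 j k) + s.2.2.1.countP (neq k)
def co (p : Par) (s : St) (j k : ℕ) : ℕ := bif gb s.1 k then pin p.2.1 j k else 0
def dbl (p : Par) (l : List Bool) (e : ℕ) : Bool := gb l e && gb l (p.1 + e)
def emp (p : Par) (l : List Bool) (e : ℕ) : Bool := !gb l e && !gb l (p.1 + e)
def trv (p : Par) (l : List Bool) : Bool := (rg p p.1).all fun e => !dbl p l e
def dif (l l' : List Bool) (k : ℕ) : Bool := bif gb l k then !gb l' k else gb l' k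
def en (p : Par) (s : St) (j : ℕ) (l : List Bool) : ℕ :=
  ((rg p (p.1 + p.1)).map fun k => bif gb l k then ci p s j k else co p s j k).sum +
    ((rg p p.1).map fun e => bif dbl p l e then 2 * LL p else 0).sum
def pa (p : Par) (v : List Bool) : ℕ := ofBits (v.take (LL p))
def pb (p : Par) (v : List Bool) : ℕ := ofBits ((v.drop (LL p)).take (LL p))
def prp (p : Par) (i : ℕ × ℕ) (s : St) (v : List Bool) : List Bool :=
  (rg p (p.1 + p.1)).map fun k => bif neq i.1 0 then (bif neq k i.2 then nlt k p.1 else gb s.1 k)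
    else (neq k (pb p v) || (!neq k (pa p v) && gb (s.2.1.headD []) k))
def side (p : Par) (i : ℕ × ℕ) (v : List Bool) : Bool := nlt (bif neq i.1 0 then i.2 else pa p v) p.1
def qry (p : Par) (i : ℕ × ℕ) (s : St) (v : List Bool) : Bool × List Bool :=
  (side p i v, (rg p p.1).map fun e =>
    bif side p i v then gb (prp p i s v) e else !gb (prp p i s v) (p.1 + e))
def ok (p : Par) (i : ℕ × ℕ) (s : St) (v : List Bool) (a : Bool) : Bool :=
  (nlt (pa p v) (p.1 + p.1) && nlt (pb p v) (p.1 + p.1)) &&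
    ((gb (s.2.1.headD []) (pa p v) && (!gb (s.2.1.headD []) (pb p v) &&
      ((bif nlt (pa p v) p.1 then nlt (pb p v) p.1 else !nlt (pb p v) p.1) && a))) &&
    (((v.drop (LL p)).drop (LL p)).take
      (en p s i.2 (prp p i s v) - en p s i.2 (s.2.1.headD []))).all (!·))
def JJ (p : Par) : ℕ := (p.1 + p.1) * p.2.1 ^ 2
def MM (p : Par) : ℕ := p.2.1 ^ 12
def pick (p : Par) (m : List (List Bool)) : ℕ :=
  min (((rg p p.1).filter fun e => !nlt (4 * p.1 * m.countP fun l => dbl p l e) (3 * MM p)).headD 0) p.1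
def endr (p : Par) (j : ℕ) (s : St) : St :=
  bif nlt j (JJ p) then (s.1, [], s.2.2.1,
    min (2 * MM p + 2 * s.2.1.countP fun l => dif l s.1 (j / p.2.1 ^ 2)) (4 * MM p) :: s.2.2.2.1, s.2.2.2.2)
  else bif s.2.2.2.2 then (s.1, [], s.2.2)
  else bif nlt (4 * s.2.1.countP (trv p)) (MM p) then
    (s.1, [], pick p s.2.1 :: (p.1 + pick p s.2.1) :: s.2.2.1,
      min (2 * MM p + 2 * (s.2.1.countP fun l => emp p l (pick p s.2.1)) -
        s.2.1.countP fun l => dbl p l (pick p s.2.1)) (4 * MM p) :: s.2.2.2.1, false)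
  else (s.1, [], s.2.2.1, min (2 * s.2.1.countP (trv p)) (4 * MM p) :: s.2.2.2.1, true)
def upd (p : Par) (i : ℕ × ℕ) (s : St) (v : List Bool) (a : Bool) : St :=
  bif neq i.1 0 then (bif a then prp p i s v else s.1, s.2)
  else bif neq i.1 1 then (s.1, (rg p (p.1 + p.1)).map (gb s.1) :: s.2.1, s.2.2)
  else bif neq i.1 2 then (s.1, bif ok p i s v a then prp p i s v :: s.2.1.tail else s.2.1, s.2.2)
  else endr p i.2 s
def bb (p : Par) : ℕ := LL p + (LL p + p.2.1 ^ 4)
def rnd (p : Par) (j : ℕ) : List (ℕ × ℕ) :=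
  ((rg p (MM p)).flatMap fun _ => (1, j) :: (rg p (p.2.1 ^ 13)).map fun _ => (2, j)) ++ [(3, j)]
def ins (p : Par) : List (ℕ × ℕ) :=
  (rg p (p.1 + p.1)).map (fun k => (0, k)) ++ (rg p (JJ p + p.2.1 ^ 2)).flatMap (rnd p)
def init (p : Par) : St := ((rg p (p.1 + p.1)).map fun k => !nlt k p.1, [], [], [], false)
def out (p : Par) (s : St) : ℕ × ℕ :=
  bif s.2.2.2.2 then (s.2.2.2.1.prod, (2 * MM p) ^ s.2.2.2.1.length *
    2 ^ (p.2.2.take (2 * LL p * (rg p p.1).countP (dbl p s.1))).length) else (0, 1)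
/-- State, remaining coins, remaining instructions. -/
abbrev Mc : Type := St × List Bool × List (ℕ × ℕ)
def ms (p : Par) (z : Mc) (a : Bool) : Mc :=
  bif isCons z.2.2 then
    (upd p (z.2.2.headD (0, 0)) z.1 (z.2.1.take (bb p)) a, z.2.1.drop (bb p), z.2.2.tail) else z
def qq (p : Par) (z : Mc) : Bool × List Bool := qry p (z.2.2.headD (0, 0)) z.1 (z.2.1.take (bb p))
def PP (x : ℕ × ℚ × ℚ) : ℕ :=
  64 * (x.1 + x.2.1.den / x.2.1.num.toNat + (x.2.2.den / x.2.2.num.toNat + 1).bits.length + 2)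
def par (y : View) : Par := (y.1.1, PP y.1, y.2.1.map fun _ => false)
def run (y : View) : Mc := y.2.2.foldl (ms (par y)) (init (par y), y.2.1, ins (par y))
def algQ (y : View) : Bool × List Bool := qq (par y) (run y)
def algA (y : View) : ℕ × ℕ := out (par y) (run y).1

section tc2

variable {α : Type} [Enc α] {p : α → Par} {s : α → St} {j k : α → ℕ} {l l' v : α → List Bool}
  {i : α → ℕ × ℕ}

@[fun_prop] theorem tc_rg (hp : TC 0 p) (hk : TC 0 k) : TC 0 fun a => rg (p a) (k a) := by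
  unfold rg; fun_prop
@[fun_prop] theorem tc_LL (hp : TC 0 p) : TC 0 fun a => LL (p a) := by unfold LL; fun_prop
@[fun_prop] theorem tc_gb (hl : TC 0 l) (hk : TC 0 k) : TC 0 fun a => gb (l a) (k a) := by
  unfold gb; fun_prop
@[fun_prop] theorem tc_pin {P : α → ℕ} (hp : TC 0 P) (hj : TC 0 j) (hk : TC 0 k) :
    TC 0 fun a => pin (P a) (j a) (k a) := by unfold pin; fun_prop
@[fun_prop] theorem tc_ci (hp : TC 0 p) (hs : TC 0 s) (hj : TC 0 j) (hk : TC 0 k) :
    TC 0 fun a => ci (p a) (s a) (j a) (k a) := by unfold ci; fun_prop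
@[fun_prop] theorem tc_co (hp : TC 0 p) (hs : TC 0 s) (hj : TC 0 j) (hk : TC 0 k) :
    TC 0 fun a => co (p a) (s a) (j a) (k a) := by unfold co; fun_prop
@[fun_prop] theorem tc_dbl (hp : TC 0 p) (hl : TC 0 l) (hk : TC 0 k) :
    TC 0 fun a => dbl (p a) (l a) (k a) := by unfold dbl; fun_prop
@[fun_prop] theorem tc_emp (hp : TC 0 p) (hl : TC 0 l) (hk : TC 0 k) :
    TC 0 fun a => emp (p a) (l a) (k a) := by unfold emp; fun_prop
@[fun_prop] theorem tc_trv (hp : TC 0 p) (hl : TC 0 l) : TC 0 fun a => trv (p a) (l a) := by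
  unfold trv; fun_prop
@[fun_prop] theorem tc_dif (hl : TC 0 l) (hl' : TC 0 l') (hk : TC 0 k) :
    TC 0 fun a => dif (l a) (l' a) (k a) := by unfold dif; fun_prop
@[fun_prop] theorem tc_en (hp : TC 0 p) (hs : TC 0 s) (hj : TC 0 j) (hl : TC 0 l) :
    TC 0 fun a => en (p a) (s a) (j a) (l a) := by unfold en; fun_prop
@[fun_prop] theorem tc_pa (hp : TC 0 p) (hv : TC 0 v) : TC 0 fun a => pa (p a) (v a) := by
  unfold pa; fun_prop
@[fun_prop] theorem tc_pb (hp : TC 0 p) (hv : TC 0 v) : TC 0 fun a => pb (p a) (v a) := by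
  unfold pb; fun_prop
@[fun_prop] theorem tc_prp (hp : TC 0 p) (hi : TC 0 i) (hs : TC 0 s) (hv : TC 0 v) :
    TC 0 fun a => prp (p a) (i a) (s a) (v a) := by unfold prp; fun_prop
@[fun_prop] theorem tc_side (hp : TC 0 p) (hi : TC 0 i) (hv : TC 0 v) :
    TC 0 fun a => side (p a) (i a) (v a) := by unfold side; fun_prop
@[fun_prop] theorem tc_qry (hp : TC 0 p) (hi : TC 0 i) (hs : TC 0 s) (hv : TC 0 v) :
    TC 0 fun a => qry (p a) (i a) (s a) (v a) := by unfold qry; fun_prop
@[fun_prop] theorem tc_ok {c : α → Bool} (hp : TC 0 p) (hi : TC 0 i) (hs : TC 0 s) (hv : TC 0 v)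
    (hc : TC 0 c) : TC 0 fun a => ok (p a) (i a) (s a) (v a) (c a) := by unfold ok; fun_prop
@[fun_prop] theorem tc_JJ (hp : TC 0 p) : TC 0 fun a => JJ (p a) := by unfold JJ; fun_prop
@[fun_prop] theorem tc_MM (hp : TC 0 p) : TC 0 fun a => MM (p a) := by unfold MM; fun_prop
@[fun_prop] theorem tc_pick {m : α → List (List Bool)} (hp : TC 0 p) (hm : TC 0 m) :
    TC 0 fun a => pick (p a) (m a) := by unfold pick; fun_prop
@[fun_prop] theorem tc_endr (hp : TC 0 p) (hj : TC 0 j) (hs : TC 0 s) :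
    TC 0 fun a => endr (p a) (j a) (s a) := by
  have h1 : TC 0 fun a => (s a).1 := hs.fst
  have h2 : TC 0 fun a => (s a).2.1 := hs.snd.fst
  have h3 : TC 0 fun a => (s a).2.2.1 := hs.snd.snd.fst
  have h4 : TC 0 fun a => (s a).2.2.2.1 := hs.snd.snd.snd.fst
  have h5 : TC 0 fun a => (s a).2.2.2.2 := hs.snd.snd.snd.snd
  have h6 := tc_pick hp h2
  have h7 := tc_MM hp
  have h8 : TC 0 fun a => (s a).2.1.countP (trv (p a)) := tc_countP (by fun_prop) h2
  have h9 := TC.mul (TC.const 4) h7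
  have h10 := TC.mul (TC.const 2) h7
  exact TC.cond (TC.nlt hj (tc_JJ hp)) (h1.pair ((TC.const _).pair (h3.pair ((TC.cons (tc_min
    (h10.add (TC.mul (TC.const 2) (tc_countP (by fun_prop) h2))) h9) h4).pair h5)))) (TC.cond h5
    (h1.pair ((TC.const _).pair hs.snd.snd)) (TC.cond (TC.nlt (TC.mul (TC.const 4) h8) h7)
    (h1.pair ((TC.const _).pair ((h6.cons ((hp.fst.add h6).cons h3)).pair ((TC.cons (tc_min
      ((h10.add (TC.mul (TC.const 2) (tc_countP (tc_emp (hp.comp TC.fst') TC.snd' (h6.comp TC.fst')) h2))).sub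
      (tc_countP (tc_dbl (hp.comp TC.fst') TC.snd' (h6.comp TC.fst')) h2)) h9) h4).pair (TC.const _)))))
    (h1.pair ((TC.const _).pair (h3.pair ((TC.cons (tc_min (TC.mul (TC.const 2) h8) h9) h4).pair
      (TC.const _)))))))
@[fun_prop] theorem tc_upd {c : α → Bool} (hp : TC 0 p) (hi : TC 0 i) (hs : TC 0 s) (hv : TC 0 v)
    (hc : TC 0 c) : TC 0 fun a => upd (p a) (i a) (s a) (v a) (c a) :=
  have h1 := tc_prp hp hi hs hv
  TC.cond (tc_neq hi.fst (TC.const _)) ((hc.cond h1 hs.fst).pair hs.snd) (TC.cond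
    (tc_neq hi.fst (TC.const _)) (hs.fst.pair (((TC.map (f := fun a => gb (s a).1) (tc_gb (hs.fst.comp TC.fst') TC.snd')
      (tc_rg hp (hp.fst.add hp.fst))).cons hs.snd.fst).pair hs.snd.snd)) (TC.cond
    (tc_neq hi.fst (TC.const _)) (hs.fst.pair (((tc_ok hp hi hs hv hc).cond
      (h1.cons hs.snd.fst.tail) hs.snd.fst).pair hs.snd.snd)) (tc_endr hp hi.snd hs)))
@[fun_prop] theorem tc_bb (hp : TC 0 p) : TC 0 fun a => bb (p a) := by unfold bb; fun_prop
@[fun_prop] theorem tc_rnd (hp : TC 0 p) (hj : TC 0 j) : TC 0 fun a => rnd (p a) (j a) := by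
  unfold rnd; fun_prop
@[fun_prop] theorem tc_ins (hp : TC 0 p) : TC 0 fun a => ins (p a) := by unfold ins; fun_prop
@[fun_prop] theorem tc_init (hp : TC 0 p) : TC 0 fun a => init (p a) := by unfold init; fun_prop
@[fun_prop] theorem tc_out (hp : TC 0 p) (hs : TC 0 s) : TC 0 fun a => out (p a) (s a) :=
  have h := hs.snd.snd.snd
  h.snd.cond ((tc_prod h.fst).pair ((tc_powLen ((TC.const 2).mul (tc_MM hp)) h.fst).mul
    (tc_powLen (TC.const 2) (tc_take hp.snd.snd (((TC.const 2).mul (tc_LL hp)).mul (tc_countP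
      (f := fun a => dbl (p a) (s a).1) (tc_dbl (hp.comp TC.fst') (hs.fst.comp TC.fst') TC.snd')
      (tc_rg hp hp.fst))))))) (TC.const _)
@[fun_prop] theorem tc_ms {z : α → Mc} {c : α → Bool} (hp : TC 0 p) (hz : TC 0 z) (hc : TC 0 c) :
    TC 0 fun a => ms (p a) (z a) (c a) := by unfold ms; fun_prop
@[fun_prop] theorem tc_qq {z : α → Mc} (hp : TC 0 p) (hz : TC 0 z) : TC 0 fun a => qq (p a) (z a) := by
  unfold qq; fun_prop

end tc2

theorem sz_ms (p : Par) (z : Mc) (a : Bool) :
    sz (ms p z a) ≤ sz z + (4 * sz p.2.2 + 8 * sz (p.1 + p.1) + 4 * sz (4 * MM p) + 8) := by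
  obtain ⟨⟨st, m, u, f, d⟩, c, is⟩ := z
  have h1 : ∀ g : ℕ → Bool, sz ((rg p (p.1 + p.1)).map g) ≤ 4 * sz p.2.2 + 1 := fun g => by
    have := sz_bools ((rg p (p.1 + p.1)).map g)
    have := length_le_sz p.2.2
    simp only [rg, idx, List.length_map, List.length_range, List.length_take] at *
    omega
  have h2 := sz_drop c (bb p)
  have h3 := sz_drop is 1
  have h4 := sz_drop m 1
  have h5 : ∀ x, sz (min x (4 * MM p)) ≤ 4 * sz (4 * MM p) + 1 := fun x => sz_nat_mono (min_le_right _ _)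
  have h6 : pick p m ≤ p.1 := min_le_right _ _
  have h7 := sz_nat_mono (show pick p m ≤ p.1 + p.1 by omega)
  have h8 := sz_nat_mono (show p.1 + pick p m ≤ p.1 + p.1 by omega)
  have h9 := one_le_sz m
  have h10 := one_le_sz d
  have h11 := sz_bool true
  have h12 := sz_bool false
  rw [List.drop_one] at h3 h4
  have e : ∀ j, sz (endr p j (st, m, u, f, d)) ≤ sz (st, m, u, f, d) +
      (8 * sz (p.1 + p.1) + 4 * sz (4 * MM p) + 8) := fun j => by
    unfold endr
    cases nlt j (JJ p)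
    · cases d
      · cases nlt (4 * m.countP (trv p)) (MM p) <;>
          simp only [Bool.cond_true, Bool.cond_false, sz_pair, sz_lcons, sz_lnil] <;> grind
      · simp only [Bool.cond_true, Bool.cond_false, sz_pair, sz_lnil]
        omega
    · simp only [Bool.cond_true, sz_pair, sz_lcons, sz_lnil]
      grind
  unfold ms upd
  cases isCons is
  · simp
  generalize is.headD (0, 0) = i
  have := e i.2
  have : sz (prp p i (st, m, u, f, d) (c.take (bb p))) ≤ _ := h1 _
  have := h1 (gb st)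
  cases neq i.1 0
  · cases neq i.1 1
    · cases neq i.1 2
      · simp only [Bool.cond_true, Bool.cond_false, sz_pair] at *
        omega
      · cases ok p i (st, m, u, f, d) (c.take (bb p)) a <;>
          simp only [Bool.cond_true, Bool.cond_false, sz_pair, sz_lcons] <;> omega
    · simp only [Bool.cond_true, Bool.cond_false, sz_pair, sz_lcons]
      omega
  · cases a <;> simp only [Bool.cond_true, Bool.cond_false, sz_pair] <;> omega

instance : Enc ℚ := ⟨fun r => Enc.enc (r.num.toNat, r.den)⟩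

theorem tc_par : TC 0 par := by
  have h : TC 0 fun r : ℚ => (r.num.toNat, r.den) := TC.id.of_enc fun _ => rfl
  have h1 : TC 0 fun y : View => (y.1.2.1.num.toNat, y.1.2.1.den) := h.comp (by fun_prop)
  have h2 : TC 0 fun y : View => (y.1.2.2.num.toNat, y.1.2.2.den) := h.comp (by fun_prop)
  exact TC.pair (by fun_prop) (TC.pair (TC.mul (TC.const _) (TC.add (TC.add (TC.add (by fun_prop)
    (TC.div h1.snd h1.fst)) (TC.length (TC.bits (TC.add (TC.div h2.snd h2.fst) (TC.const _)))))
    (TC.const _))) (by fun_prop))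

theorem tc_fold {α : Type} [Enc α] {p : α → Par} {w h : α → List Bool} (hp : TC 0 p) (hw : TC 0 w)
    (hh : TC 0 h) : TC 0 fun a => (h a).foldl (ms (p a)) (init (p a), w a, ins (p a)) := by
  have h' : TC 0 fun q : α × Bool => p q.1 := hp.comp TC.fst'
  exact TC.foldl_grow (f := fun y => ms (p y)) (tc_ms (hp.comp TC.fst') TC.snd'.fst TC.snd'.snd)
    ((tc_init hp).pair (hw.pair (tc_ins hp))) hh (((((Bd.const _ 4).mul h'.snd.snd.bd).add
      ((Bd.const _ 8).mul (h'.fst.add h'.fst).bd)).add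
      ((Bd.const _ 4).mul ((TC.const 4).mul (tc_MM h')).bd)).add (Bd.const _ 8)) fun y z a => sz_ms _ z a

theorem tc_run : TC 0 run := tc_fold tc_par TC.snd'.fst TC.snd'.snd

theorem e_bool (b : Bool) : encBool b = (Enc.enc b).enc := by cases b <;> rfl

theorem e_nat (n : ℕ) : encNat n = (Enc.enc n).enc := enc_list _ e_bool n.bits

theorem e_view (y : View) : encView y = (Enc.enc y).enc := by
  simp only [encView, encPair, encRat, encList, enc_list _ e_bool, e_nat]
  rfl

open Turing in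
theorem to_poly {β : Type} [Enc β] {f : View → β} (h : TC 0 f) (eb : β → List Bool)
    (hb : ∀ b, eb b = (Enc.enc b).enc) :
    ∃ tm : TM2ComputableInPolyTime encView eb f, ∀ k, Finite (tm.tm.Γ k) := by
  obtain ⟨C, tm, h1, h2⟩ := h.toTM encView eb f id e_view fun x => hb _
  refine ⟨⟨tm.toTM2ComputableAux, (2 * Polynomial.X + 2) ^ C, fun a =>
    ⟨(tm.outputsFun a).toEvalsTo, (tm.outputsFun a).steps_le_m.trans ((h2 _).trans ?_)⟩⟩, h1⟩
  generalize (encView a).length = L
  simp only [Polynomial.eval_pow, Polynomial.eval_add, Polynomial.eval_mul, Polynomial.eval_ofNat,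
    Polynomial.eval_X, zero_add, pow_one]
  rw [mul_comm, pow_mul]
  refine Nat.pow_le_pow_left ?_ _
  rcases Nat.eq_zero_or_pos L with rfl | h
  · simp
  · have := Nat.pow_log_le_self 2 h.ne'
    rw [pow_succ]
    omega

open Turing in
theorem poly_Q : ∃ tm : TM2ComputableInPolyTime encView (encPair encBool (encList encBool)) algQ,
    ∀ k, Finite (tm.tm.Γ k) :=
  to_poly (tc_qq tc_par tc_run) _ fun b => by
    rw [encPair, encList, enc_list _ e_bool, e_bool]; rfl

open Turing in
theorem poly_A : ∃ tm : TM2ComputableInPolyTime encView (encPair encNat encNat) algA,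
    ∀ k, Finite (tm.tm.Γ k) :=
  to_poly (tc_out tc_par tc_run.fst) _ fun b => by simp only [encPair, e_nat]; rfl

end Vale.Agent.P317
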