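import Vale.Agent.P317.Anal
import Mathlib.Algebra.Order.Floor.Semifield
import Mathlib.Data.Rat.Floor

/-! Assembly: mixing, all rounds, the success probability. -/

namespace Vale.Agent.P317

open Finset Vale.Agent.Common.TreeTM Vale.Agent.P337

variable {n P L : ℕ} {ω0 : Finset (Fin (n + n))} {M₁ M₂ : Matroid (Fin n)} {U : List Bool}

theorem two_le_exp (k : ℕ) : (2 : ℝ) ^ k ≤ Real.exp k := by
  rw [← mul_one (k : ℝ), Real.exp_nat_mul]
  exact pow_le_pow_left₀ (by norm_num) (by linarith [Real.add_one_le_exp 1]) k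

theorem mix (hr : rk M₁ univ = rk M₂ univ) (h0 : Bas M₁ M₂ ω0) (hP : 64 * (n + 2) ≤ P)
    (hL : 32 * n ≤ 2 ^ L) (hL' : 2 ^ L ≤ P) {u : List ℕ} (hu : u.length ≤ 2 * P ^ 2) (j : ℕ)
    (q : Finset (Fin (n + n)) → Bool) :
    |(tr (Bas M₁ M₂) (EE P L ω0 u j) L (P ^ 4))^[P ^ 13] (fun ω => if q ω then 1 else 0) ω0 -
      av (gw M₁ M₂ (EE P L ω0 u j)) q| ≤ 1 / P ^ 5 := by
  have C0 : (0 : ℝ) < (1 + 8 * n * 4 ^ L) ^ 2 := by positivity
  have h := tr_iter (π := gw M₁ M₂ (EE P L ω0 u j)) (fun ω => rfl) (m := L) (by omega)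
    (EE_le hP (Nat.lt_two_pow_self.le.trans hL') hu j) C0 (gw_poin hr h0 _ _ L)
    (fun ω => if q ω then 1 else 0) (fun ω => by split_ifs <;> norm_num) h0 (P ^ 13)
  have p1 : (64 * (n + 2) : ℝ) ≤ P := by exact_mod_cast hP
  have n0 : (0 : ℝ) ≤ n := n.cast_nonneg
  have p0 : (0 : ℝ) < P := by linarith
  have a1 : (4 : ℝ) ^ L ≤ P ^ 2 := by
    rw [show (4 : ℝ) = 2 ^ 2 by norm_num, ← pow_mul, mul_comm, pow_mul]
    exact pow_le_pow_left₀ (by positivity) (by exact_mod_cast hL') 2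
  have a2 : (1 + 8 * n * 4 ^ L : ℝ) ≤ P ^ 3 := by
    nlinarith [mul_le_mul_of_nonneg_left a1 n0, mul_le_mul_of_nonneg_right p1 (sq_nonneg (P : ℝ))]
  have a3 : (P : ℝ) ^ 5 / 2 ≤ (P ^ 13 : ℕ) * ((1 / 4) ^ L / (2 * (1 + 8 * n * 4 ^ L) ^ 2)) := by
    rw [one_div_pow, show (P : ℝ) ^ 5 / 2 = P ^ 13 * (1 / P ^ 2 / (2 * (P ^ 3) ^ 2)) by field_simp, Nat.cast_pow]
    gcongr
  refine abs_le_of_sq_le_sq (h.trans ?_) (by positivity)
  refine (mul_le_mul (Real.exp_le_exp.2 (neg_le_neg a3)) (two_le_exp _) (by positivity)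
    (Real.exp_pos _).le).trans ?_
  have a4 : (P : ℝ) ^ 10 ≤ Real.exp (10 * P) := by
    rw [show (10 : ℝ) * P = (10 : ℕ) * P by norm_num, Real.exp_nat_mul]
    exact pow_le_pow_left₀ p0.le (by linarith [Real.add_one_le_exp (P : ℝ)]) _
  rw [← Real.exp_add, one_div_pow, ← pow_mul, le_div_iff₀ (by positivity)]
  refine (mul_le_mul_of_nonneg_left a4 (Real.exp_pos _).le).trans ?_
  rw [← Real.exp_add, Real.exp_le_one_iff]
  push_cast
  have a5 : (P : ℝ) ≤ P ^ 4 := le_self_pow₀ (by linarith) (by norm_num)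
  nlinarith [mul_le_mul_of_nonneg_right p1 (show (0 : ℝ) ≤ P ^ 4 by positivity),
    mul_nonneg n0 (show (0 : ℝ) ≤ P ^ 4 by positivity)]

theorem LL_spec (hP : 64 * (n + 2) ≤ P) : 32 * n ≤ 2 ^ LL (n, P, U) ∧ 2 ^ LL (n, P, U) ≤ P := by
  have h1 := Nat.lt_size_self n
  have h2 : 2 ^ n.size ≤ 2 * n + 1 := by
    rcases h : n.size with _ | k
    · simp
    · have := Nat.lt_size.1 (h ▸ k.lt_succ_self : k < n.size)
      omega
  rw [LL, Nat.size_eq_bits_len, pow_add]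
  dsimp only
  omega

theorem rounds (hr : rk M₁ univ = rk M₂ univ) (h0 : Bas M₁ M₂ ω0) (hP : 64 * (n + 2) ≤ P)
    (hU : P ^ 13 ≤ U.length) {D : ℕ} {G : St → ℝ} (G0 : ∀ s, 0 ≤ G s) (hG : ∀ u f d,
      Inv P (LL (n, P, U)) ω0 M₁ M₂ D ((n + n) * P ^ 2 + P ^ 2) u f d → 1 ≤ G (lst ω0, [], u, f, d))
    (r : ℕ) : ∀ j u f d, j + r = (n + n) * P ^ 2 + P ^ 2 → Inv P (LL (n, P, U)) ω0 M₁ M₂ D j u f d →
      1 - r * (P * (2 * Real.exp (-P ^ 2))) ≤ Kn (oracle M₁ M₂) (n, P, U)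
        ((List.range' j r).flatMap (rnd (n, P, U))) G (lst ω0, [], u, f, d) := by
  have P0 : 0 < P := by omega
  have hM : P ^ 12 ≤ U.length := (Nat.pow_le_pow_right P0 (by norm_num)).trans hU
  have hn : n + n ≤ U.length := le_trans (by omega) ((Nat.le_self_pow (by norm_num) P).trans hU)
  induction r with
  | zero =>
    intro j u f d e h
    simpa [Kn] using hG u f d (e ▸ h)
  | succ r ih =>
    intro j u f d e h
    rw [List.range'_succ, List.flatMap_cons, Kn_append, Kn_rnd hn hM hU _ h0]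
    have hl := h.len
    have := Bt_ge (fnl_tr (EE P (LL (n, P, U)) ω0 u j) (LL (n, P, U)) (P ^ 4) (P ^ 13) ω0 h0)
      (univ : Finset (Fin (n + n) ⊕ Fin n ⊕ Fin n ⊕ Unit)) (Sum.elim (fun a ω => dif (lst ω) (lst ω0) a)
        (Sum.elim (fun e ω => dbl (n, P, U) (lst ω) e) (Sum.elim (fun e ω => emp (n, P, U) (lst ω) e)
        fun _ ω => trv (n, P, U) (lst ω)))) _ (c := 1 - r * (P * (2 * Real.exp (-P ^ 2)))) (P ^ 12)
      (by positivity) ((div_le_one (by positivity)).2 (one_le_pow₀ (by exact_mod_cast P0)))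
      (fun i _ => mix hr h0 hP (LL_spec hP).1 (LL_spec hP).2 (by omega) j _)
      (fun l => Kn (oracle M₁ M₂) (n, P, U) ((List.range' (j + 1) r).flatMap (rnd (n, P, U))) G
        (endr (n, P, U) j (lst ω0, l.map lst, u, f, d))) (sub_le_self _ (by positivity))
      (fun l => Kn_nonneg _ G0 _) fun l l1 _ l3 => by
        obtain ⟨u', f', d', e1, e2⟩ := round hr h0 hn hP (LL_spec hP).1 h l l1 (by
          rintro q (⟨a, rfl⟩ | ⟨a, rfl⟩ | ⟨a, rfl⟩ | rfl)
          · exact cl_div P0 (l3 (.inl a) (mem_univ _))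
          · exact cl_div P0 (l3 (.inr (.inl a)) (mem_univ _))
          · exact cl_div P0 (l3 (.inr (.inr (.inl a))) (mem_univ _))
          · exact cl_div P0 (l3 (.inr (.inr (.inr ()))) (mem_univ _)))
        rw [e1]
        exact ih _ _ _ _ (by omega) e2
    refine le_trans ?_ this
    have c1 : ((univ : Finset (Fin (n + n) ⊕ Fin n ⊕ Fin n ⊕ Unit)).card : ℝ) ≤ P := by
      rw [Nat.cast_le]
      simp
      omega
    rw [show ((P ^ 12 : ℕ) : ℝ) * (1 / P ^ 5) ^ 2 = P ^ 2 by push_cast; field_simp]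
    push_cast
    linarith [mul_le_mul_of_nonneg_right c1 (show 0 ≤ 2 * Real.exp (-P ^ 2) by positivity)]

theorem EE_zero (hU : n + n ≤ U.length) (L : ℕ) :
    2 * L * (rg (n, P, U) n).countP (dbl (n, P, U) (lst ω0)) = EE P L ω0 [] 0 ω0 ∧
      EE P L ω0 [] 0 ω0 ≤ 2 * L * n := by
  have e : 2 * L * (rg (n, P, U) n).countP (dbl (n, P, U) (lst ω0)) = EE P L ω0 [] 0 ω0 := by
    have c : ∀ (l : List ℕ) (q : ℕ → Bool), l.countP q = (l.map fun x => if q x then 1 else 0).sum := by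
      intro l q
      induction l with
      | nil => rfl
      | cons x l ih => rw [List.countP_cons, List.map_cons, List.sum_cons, ih, add_comm]
    rw [rg_eq (by omega), c, sum_rg, mul_sum, EE, eng, sum_eq_zero (s := univ) (M := ℕ)
      (ι := Fin (n + n)), zero_add]
    · simp [dbl_lst]
    · intro a _
      by_cases c : a ∈ ω0 <;> simp [c]
  refine ⟨e, e ▸ Nat.mul_le_mul_left _ (List.countP_le_length.trans ?_)⟩
  rw [rg_eq (by omega), List.length_range]

theorem inv_zero (h0 : Bas M₁ M₂ ω0) (hP : 64 * (n + 2) ≤ P) (hL : L ≤ P)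
    (hE : EE P L ω0 [] 0 ω0 ≤ 2 * L * n) : Inv P L ω0 M₁ M₂ (2 ^ EE P L ω0 [] 0 ω0) 0 [] [] false := by
  refine ⟨by simp, fun _ => rfl, ?_, fun _ _ _ _ => by simp [FF], fun _ => by simpa using Z_le _⟩
  have e : est (P ^ 12) (2 ^ EE P L ω0 [] 0 ω0) [] = gw M₁ M₂ (EE P L ω0 [] 0) ω0 := by
    simp [est, gw, h0]
  have a1 := single_le_sum (fun ω _ => gw_nonneg M₁ M₂ (EE P L ω0 [] 0) ω) (mem_univ ω0)
  have a2 := sum_le_card_nsmul (univ.erase ω0) (gw M₁ M₂ (EE P L ω0 [] 0)) ((1 / 2) ^ P ^ 2) fun ω h => by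
    unfold gw
    split_ifs
    · refine pow_le_pow_of_le_one (by norm_num) (by norm_num) (le_trans ?_ (Nat.le_add_right _ _))
      obtain ⟨a, ha⟩ := not_forall.1 (mt Finset.ext_iff.2 (ne_of_mem_erase h))
      refine le_trans ?_ (single_le_sum (fun _ _ => Nat.zero_le _) (mem_univ a))
      by_cases c : a ∈ ω0 <;> simp_all [pin]
    · positivity
  have a3 : ((univ.erase ω0).card : ℝ) ≤ 2 ^ (n + n) := by
    have := card_le_univ (univ.erase ω0)
    rw [Fintype.card_finset, Fintype.card_fin] at this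
    exact_mod_cast this
  have a4 : (1 / 2) ^ (2 * L * n) ≤ gw M₁ M₂ (EE P L ω0 [] 0) ω0 := by
    rw [gw, if_pos h0]
    exact pow_le_pow_of_le_one (by norm_num) (by norm_num) hE
  have p0 : (0 : ℝ) < P := by exact_mod_cast (by omega : 0 < P)
  have a5 : (2 : ℝ) ^ (n + n) * (1 / 2) ^ P ^ 2 ≤ 1 / P ^ 5 * (1 / 2) ^ (2 * L * n) := by
    rw [one_div_pow, one_div_pow, one_div_mul_one_div, mul_one_div, div_le_div_iff₀ (by positivity)
      (by positivity), one_mul]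
    have b1 := Nat.pow_le_pow_left (Nat.lt_two_pow_self (n := P)).le 5
    have b2 : n + n + (P * 5 + 2 * L * n) ≤ P ^ 2 := by
      nlinarith [Nat.mul_le_mul_right n hL, Nat.mul_le_mul_right P hP]
    have := Nat.mul_le_mul_left (2 ^ (n + n)) (Nat.mul_le_mul_right (2 ^ (2 * L * n)) b1)
    rw [← pow_mul, ← pow_add, ← pow_add] at this
    exact_mod_cast this.trans (Nat.pow_le_pow_right two_pos b2)
  rw [nsmul_eq_mul] at a2
  have a6 := mul_le_mul_of_nonneg_right a3 (show (0 : ℝ) ≤ (1 / 2) ^ P ^ 2 by positivity)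
  have a7 := add_sum_erase univ (gw M₁ M₂ (EE P L ω0 [] 0)) (mem_univ ω0)
  have a8 := gw_nonneg M₁ M₂ (EE P L ω0 [] 0) ω0
  have g0 : (0 : ℝ) < 1 / P ^ 5 := by positivity
  simp only [e, Bool.false_eq_true, if_false, Nat.zero_sub, pow_zero, mul_one, Nat.cast_zero, zero_add,
    div_eq_mul_one_div (20 : ℝ)]
  refine ⟨a8.trans a1, a8, ?_, by nlinarith⟩
  nlinarith [mul_le_mul_of_nonneg_left (a4.trans a1) g0.le, mul_nonneg g0.le (a8.trans a1)]

theorem NN_card (hr : rk M₁ univ = rk M₂ univ) :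
    NN M₁ M₂ = {B | M₁.IsBase B ∧ M₂.IsBase B}.ncard := by
  classical
  rw [NN, sum_boole, ← Set.ncard_coe_finset]
  refine congrArg _ (Set.ncard_congr (fun ω _ => (lf ω : Set (Fin n))) (fun ω h => ?_)
    (fun ω ω' h h' e => ?_) fun B h => ?_) <;> simp only [coe_filter, mem_univ, true_and, Set.mem_setOf_eq] at *
  · exact ⟨h.1.1, lf_rt hr h.1 h.2 ▸ h.1.2⟩
  · rw [coe_inj] at e
    have e' := (lf_rt hr h.1 h.2).symm.trans (e.trans (lf_rt hr h'.1 h'.2))
    ext a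
    induction a using cases_xy with
    | h1 i => simpa [lf] using Finset.ext_iff.1 e i
    | h2 i => simpa [rt, not_iff_not] using Finset.ext_iff.1 e' i
  · have e1 : (lf ((univ.filter (· ∈ B)).image xx ∪ (univ.filter (· ∉ B)).image yy) : Set (Fin n)) = B := by
      ext; simp [lf, xx_inj.eq_iff, (xx_ne_yy _ _).symm]
    have e2 : (rt ((univ.filter (· ∈ B)).image xx ∪ (univ.filter (· ∉ B)).image yy) : Set (Fin n)) = B := by
      ext; simp [rt, yy_inj.eq_iff, xx_ne_yy]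
    exact ⟨_, ⟨⟨e1.symm ▸ h.1, e2.symm ▸ h.2⟩, fun e => by
      simp [xx_inj.eq_iff, yy_inj.eq_iff, xx_ne_yy, (xx_ne_yy _ _).symm]⟩, e1⟩

theorem inv_end (hr : rk M₁ univ = rk M₂ univ) (h0 : Bas M₁ M₂ ω0) (hP : 64 * (n + 2) ≤ P)
    (hU : n + n ≤ U.length) {D : ℕ} {u f : List ℕ} {d : Bool} {ε : ℝ} (e1 : ε ≤ 1) (e2 : 64 ≤ ε * P)
    (h : Inv P L ω0 M₁ M₂ D ((n + n) * P ^ 2 + P ^ 2) u f d) :
    (1 - ε) * NN M₁ M₂ ≤ (if d then est (P ^ 12) D f else 0) ∧
      (if d then est (P ^ 12) D f else 0) ≤ (1 + ε) * NN M₁ M₂ := by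
  have p1 : (64 * (n + 2) : ℝ) ≤ P := by exact_mod_cast hP
  have n0 : (0 : ℝ) ≤ n := n.cast_nonneg
  have p0 : (0 : ℝ) < P := by linarith
  cases d
  · have a1 := NN_eq h0 hU h (Nat.le_add_right _ _)
    have a2 := (a1.trans_le (mul_le_of_le_one_right (mul_nonneg (Z_pos h0 _).le (by positivity))
      (av_le h0 _ _))).trans (h.dec rfl)
    rw [Nat.add_sub_cancel_left] at a2
    have a3 : (1 - 1 / (8 * (n + 1)) : ℝ) ^ P ^ 2 ≤ Real.exp (-(1 / (8 * (n + 1)))) ^ P ^ 2 :=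
      pow_le_pow_left₀ (sub_nonneg.2 ((div_le_one (by positivity)).2 (by linarith)))
        (Real.one_sub_le_exp_neg _) _
    have a4 : (4 : ℝ) ^ n ≤ Real.exp (2 * n : ℕ) := by
      refine le_trans (le_of_eq ?_) (two_le_exp _)
      rw [pow_mul]
      norm_num
    have a5 := a2.trans (mul_le_mul a4 a3 (pow_nonneg (sub_nonneg.2 ((div_le_one (by positivity)).2
      (by linarith))) _) (Real.exp_pos _).le)
    rw [← Real.exp_nat_mul, ← Real.exp_add] at a5
    have a6 := a5.trans_lt (Real.exp_lt_one_iff.2 (by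
      push_cast
      rw [mul_neg, ← sub_eq_add_neg, sub_neg, mul_one_div, lt_div_iff₀ (by positivity)]
      nlinarith))
    rw [NN_card hr, Nat.cast_lt_one] at a6
    simp [NN_card hr, a6]
  · have e0 : 0 ≤ ε := nonneg_of_mul_nonneg_left (by linarith) p0
    have a := h.ap.mono (e' := ε / 2) (by
      push_cast
      rw [div_mul_eq_mul_div, div_le_iff₀ (by positivity)]
      have b1 : (n + n) * (P : ℝ) ^ 2 + P ^ 2 + 1 ≤ P ^ 3 := by
        nlinarith [mul_le_mul_of_nonneg_right p1 (sq_nonneg (P : ℝ))]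
      have b2 : (P : ℝ) ^ 3 ≤ P ^ 4 := pow_le_pow_right₀ (by linarith) (by norm_num)
      nlinarith [mul_le_mul_of_nonneg_right e2 (show (0 : ℝ) ≤ P ^ 4 by positivity),
        show (0 : ℝ) ≤ P ^ 4 by positivity])
    simp only [if_true] at a ⊢
    obtain ⟨a1, a2, a3, a4⟩ := a
    constructor
    · nlinarith
    · nlinarith [mul_le_mul_of_nonneg_left a4 (show 0 ≤ 1 + ε by linarith),
        mul_nonneg (mul_nonneg e0 (sub_nonneg.2 e1)) a2]

theorem ins_len (hP : 64 * (n + 2) ≤ P) (hU : P ^ 13 ≤ U.length) : (ins (n, P, U)).length ≤ P ^ 30 ∧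
    ins (n, P, U) = (List.range' 0 (n + n)).map (fun k => (0, k)) ++
      (List.range' 0 ((n + n) * P ^ 2 + P ^ 2)).flatMap (rnd (n, P, U)) := by
  have m : ∀ a b, a ≤ b → P ^ a ≤ P ^ b := fun a b => Nat.pow_le_pow_right (by omega)
  have t : ∀ a, 3 * P ^ a ≤ P ^ (a + 1) := fun a => by
    rw [pow_succ']
    exact Nat.mul_le_mul_right _ (by omega)
  have a1 : (n + n) * P ^ 2 + P ^ 2 ≤ P ^ 3 := by
    rw [← Nat.succ_mul, pow_succ' P 2]
    exact Nat.mul_le_mul_right _ (by omega)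
  have a0 := m 1 13 (by norm_num)
  have a2 := m 1 29 (by norm_num)
  rw [pow_one] at a0 a2
  rw [ins, JJ, rg_eq (by dsimp only; omega), rg_eq ((a1.trans (m 3 13 (by norm_num))).trans hU)]
  refine ⟨?_, by rw [List.range_eq_range', List.range_eq_range']⟩
  have a3 : ∀ j, (rnd (n, P, U) j).length = P ^ 12 * (P ^ 13 + 1) + 1 := fun j => by
    simp [rnd, MM, rg_eq hU, rg_eq ((m 12 13 (by norm_num)).trans hU)]
  have a4 : P ^ 12 * (P ^ 13 + 1) + 1 ≤ P ^ 26 := by
    have := t 25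
    have := m 12 25 (by norm_num)
    have := m 0 25 (by norm_num)
    rw [mul_add, ← pow_add]
    norm_num at *
    omega
  have a5 := Nat.mul_le_mul a1 a4
  simp only [List.length_append, List.length_map, List.length_range, List.length_flatMap, a3,
    List.map_const', List.sum_replicate, smul_eq_mul]
  have := t 29
  rw [← pow_add] at a5
  norm_num at *
  omega

open Classical in
theorem succ_prob (hr : rk M₁ univ = rk M₂ univ) (hP : 64 * (n + 2) ≤ P) {ρ : ℕ} (hρ : P ^ 35 ≤ ρ)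
    (hU : U.length = ρ) {ε : ℝ} (e1 : ε ≤ 1) (e2 : 64 ≤ ε * P) (E : ℕ × ℕ → Prop) (hE : ∀ z : ℕ × ℕ,
      (1 - ε) * NN M₁ M₂ ≤ z.1 / z.2 → z.1 / z.2 ≤ (1 + ε) * NN M₁ M₂ → E z) :
    1 - P ^ 3 * (P * (2 * Real.exp (-P ^ 2))) ≤ Ex ρ fun c => if E (out (n, P, U)
      ((fun z => ms (n, P, U) z (oracle M₁ M₂ (qq (n, P, U) z)))^[ρ]
        (init (n, P, U), c, ins (n, P, U))).1) then 1 else 0 := by
  have m : ∀ a, a ≤ 35 → P ^ a ≤ U.length := fun a h =>
    hU ▸ (Nat.pow_le_pow_right (by omega) h).trans hρ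
  have hn : n + n ≤ U.length := le_trans (by omega) ((pow_one P).ge.trans (m 1 (by norm_num)))
  have hL : LL (n, P, U) ≤ P := Nat.lt_two_pow_self.le.trans (LL_spec hP).2
  obtain ⟨l1, l2⟩ := ins_len hP (m 13 (by norm_num))
  have b1 : bb (n, P, U) ≤ P ^ 5 := by
    have := Nat.le_self_pow (n := 4) (by norm_num) P
    have := Nat.mul_le_mul_right (P ^ 4) (show 3 ≤ P by omega)
    rw [bb, pow_succ' P 4]
    dsimp only
    omega
  rw [master (fun s => if E (out (n, P, U) s) then 1 else 0) _ _ _ _ (l1.trans (hU ▸ m 30 (by norm_num)))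
    ((Nat.mul_le_mul b1 l1).trans (by rwa [← pow_add])), l2, Kn_append, init, rg_eq hn,
    mk_eq (ω := univ.filter fun a : Fin (n + n) => ¬(a : ℕ) < n) fun a => by
      by_cases c : (a : ℕ) < n <;> simp [nlt, c, not_lt.1]]
  refine Kn_greedy hn _ _ _ (fun ω0 h0 => le_trans ?_ (rounds hr h0 hP (m 13 (by norm_num))
    (fun s => by positivity) (fun u f d h => ?_) _ 0 _ _ _ (zero_add _)
    (inv_zero h0 hP hL (EE_zero hn _).2))) _ 0 _ (zero_add _) ⟨?_, nofun⟩ ⟨?_, by simp⟩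
  · refine sub_le_sub_left (mul_le_mul_of_nonneg_right ?_ (by positivity)) _
    norm_cast
    rw [← Nat.succ_mul, pow_succ' P 2]
    exact Nat.mul_le_mul_right _ (by omega)
  · have := inv_end hr h0 hP hn e1 e2 h
    have a : EE P (LL (n, P, U)) ω0 [] 0 ω0 ≤ U.length := (EE_zero (P := P) hn _).2.trans
      (le_trans (by nlinarith [Nat.mul_le_mul_right n hL]) (m 2 (by norm_num)))
    rw [if_pos (hE _ ?_ ?_)] <;> cases d
    · simpa [out] using this.1
    · simpa only [out, Bool.cond_true, (EE_zero hn _).1, List.length_take, min_eq_left a, est, MM,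
        if_true] using this.1
    · simpa [out] using this.2
    · simpa only [out, Bool.cond_true, (EE_zero hn _).1, List.length_take, min_eq_left a, est, MM,
        if_true] using this.2
  · rw [show lf _ = ∅ by ext; simp [lf, xx_lt], coe_empty]
    exact M₁.empty_indep
  · rw [show rt _ = ∅ by ext; simp [rt, yy], coe_empty]
    exact M₂.empty_indep

theorem rat_q {r : ℚ} (h : 0 < r) : r.den / r.num.toNat ≤ ⌈1 / r⌉₊ ∧
    1 ≤ (r : ℝ) * (r.den / r.num.toNat + 1 : ℕ) := by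
  have e : 1 / r = (r.den : ℚ) / (r.num.toNat : ℕ) := by
    rw [← Int.cast_natCast r.num.toNat, Int.toNat_of_nonneg (Rat.num_pos.2 h).le, ← one_div_div (r.num : ℚ),
      Rat.num_div_den]
  rw [← Nat.floor_div_eq_div (K := ℚ), ← e]
  refine ⟨Nat.floor_le_ceil _, ?_⟩
  have := (Nat.lt_floor_add_one (1 / r)).le
  rw [div_le_iff₀' h] at this
  exact_mod_cast this

open Classical in
theorem fpras (hr : M₁.eRank = M₂.eRank) {ε δ : ℚ} (e0 : 0 < ε) (e1 : ε < 1) (d0 : 0 < δ) {ρ : ℕ}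
    (hρ : (n + ⌈1 / ε⌉₊ + Nat.log 2 ⌈1 / δ⌉₊ + 2) ^ 280 ≤ ρ) (E : ℕ × ℕ → Prop) (hE : ∀ z : ℕ × ℕ,
      (1 - ε : ℝ) * {B | M₁.IsBase B ∧ M₂.IsBase B}.ncard ≤ z.1 / z.2 →
      z.1 / z.2 ≤ (1 + ε : ℝ) * {B | M₁.IsBase B ∧ M₂.IsBase B}.ncard → E z) :
    1 - δ ≤ coinProb ρ fun w => E (algA ((n, ε, δ), w,
      answers (oracle M₁ M₂) (fun h => algQ ((n, ε, δ), w, h)) ρ)) := by
  have hr' : rk M₁ univ = rk M₂ univ := by simp [rk, hr]
  obtain ⟨a1, a2⟩ := rat_q e0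
  obtain ⟨a3, a4⟩ := rat_q d0
  have a5 := Nat.lt_size_self (δ.den / δ.num.toNat + 1)
  have a6 : (δ.den / δ.num.toNat + 1).size ≤ Nat.log 2 ⌈1 / δ⌉₊ + 2 := Nat.size_le.2 (by
    have := Nat.lt_pow_succ_log_self one_lt_two ⌈1 / δ⌉₊
    rw [pow_succ]
    omega)
  have hP : PP (n, ε, δ) = 64 * (n + ε.den / ε.num.toNat + (δ.den / δ.num.toNat + 1).size + 2) := by
    rw [PP, Nat.size_eq_bits_len]
  have e : coinProb ρ (fun w => E (algA ((n, ε, δ), w,
      answers (oracle M₁ M₂) (fun h => algQ ((n, ε, δ), w, h)) ρ))) = Ex ρ fun w => if E (algA ((n, ε, δ), w,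
      answers (oracle M₁ M₂) (fun h => algQ ((n, ε, δ), w, h)) ρ)) then 1 else 0 := by
    rw [Ex_eq, coinProb, sum_boole]
  rw [e, Ex_congr ρ (g := fun c => if E (out (n, PP (n, ε, δ), List.replicate ρ false)
      ((fun z => ms (n, PP (n, ε, δ), List.replicate ρ false) z (oracle M₁ M₂
        (qq (n, PP (n, ε, δ), List.replicate ρ false) z)))^[ρ] (init (n, PP (n, ε, δ),
        List.replicate ρ false), c, ins (n, PP (n, ε, δ), List.replicate ρ false))).1) then 1 else 0)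
      fun w hw => by simp only [algA, algQ, run, par, List.map_const', hw, replay]]
  generalize PP (n, ε, δ) = P at *
  generalize δ.den / δ.num.toNat + 1 = q at *
  generalize ε.den / ε.num.toNat = k at *
  refine le_trans (sub_le_sub_left ?_ _) (succ_prob hr' (by omega) (le_trans ?_ hρ) List.length_replicate
    (ε := ε) (by exact_mod_cast e1.le) ?_ E (by rwa [NN_card hr']))
  · have p1 : (128 : ℝ) ≤ P := by exact_mod_cast (by omega : 128 ≤ P)
    have b1 : (q : ℝ) ≤ Real.exp P := le_trans (by exact_mod_cast a5.le.trans (Nat.pow_le_pow_right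
      two_pos (by omega))) (two_le_exp P)
    have b2 : (P : ℝ) ^ 5 ≤ Real.exp (5 * P) := by
      rw [show (5 : ℝ) * P = (5 : ℕ) * P by norm_num, Real.exp_nat_mul]
      exact pow_le_pow_left₀ (by linarith) (by linarith [Real.add_one_le_exp (P : ℝ)]) _
    have b3 : Real.exp (5 * P) * Real.exp (-P ^ 2) * Real.exp P ≤ 1 := by
      rw [← Real.exp_add, ← Real.exp_add, Real.exp_le_one_iff]
      nlinarith
    have d1 : (0 : ℝ) < δ := by exact_mod_cast d0
    have b4 := mul_le_mul_of_nonneg_left (a4.trans (mul_le_mul_of_nonneg_left b1 d1.le))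
      (show 0 ≤ Real.exp (5 * P) * Real.exp (-P ^ 2) by positivity)
    have b5 : (P : ℝ) ^ 4 * 2 ≤ P ^ 5 := by
      rw [pow_succ _ 4]
      exact mul_le_mul_of_nonneg_left (by linarith) (by positivity)
    nlinarith [mul_le_mul_of_nonneg_right (b5.trans b2) (Real.exp_pos (-(P : ℝ) ^ 2)).le,
      mul_le_mul_of_nonneg_left b3 d1.le]
  · rw [show 280 = 8 * 35 from rfl, pow_mul]
    refine Nat.pow_le_pow_left ?_ _
    generalize hX : n + ⌈1 / ε⌉₊ + Nat.log 2 ⌈1 / δ⌉₊ + 2 = X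
    have := Nat.mul_le_mul_right X (Nat.pow_le_pow_left (show 2 ≤ X by omega) 7)
    rw [pow_succ]
    omega
  · have : ((64 * (k + 1) : ℕ) : ℝ) ≤ P := by exact_mod_cast (by omega)
    rw [Nat.cast_mul] at this
    have e2 : (0 : ℝ) < ε := by exact_mod_cast e0
    have := mul_le_mul_of_nonneg_left this e2.le
    push_cast at *
    linarith

end Vale.Agent.P317
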