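import Vale.Agent.P317.Chain

/-! Batches of independent samples and the Chernoff bound. -/

namespace Vale.Agent.P317

open Finset

variable {Ω Ω' : Type}

/-- An expectation functional supported on `Ba`. -/
structure Fnl (Ba : Ω → Prop) (S : (Ω → ℝ) → ℝ) : Prop where
  mono : ∀ f g, (∀ ω, Ba ω → f ω ≤ g ω) → S f ≤ S g
  lin : ∀ (a b : ℝ) f g, S (fun ω => a * f ω + b * g ω) = a * S f + b * S g
  one : S (fun _ => 1) = 1

variable {Ba : Ω → Prop} {Bb : Ω' → Prop} {S : (Ω → ℝ) → ℝ}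

theorem Fnl.congr (h : Fnl Ba S) {f g : Ω → ℝ} (e : ∀ ω, Ba ω → f ω = g ω) : S f = S g :=
  le_antisymm (h.mono _ _ fun ω a => (e ω a).le) (h.mono _ _ fun ω a => (e ω a).ge)

theorem Fnl.const (h : Fnl Ba S) (c : ℝ) : S (fun _ => c) = c := by
  simpa [h.one] using h.lin c 0 (fun _ => 1) fun _ => 1

theorem Fnl.smul (h : Fnl Ba S) (c : ℝ) (f : Ω → ℝ) : S (fun ω => c * f ω) = c * S f := by
  simpa using h.lin c 0 f f

theorem Fnl.sum (h : Fnl Ba S) {ι : Type} (I : Finset ι) (f : ι → Ω → ℝ) :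
    S (fun ω => ∑ i ∈ I, f i ω) = ∑ i ∈ I, S (f i) := by
  classical
  induction I using Finset.induction_on with
  | empty => simpa using h.const 0
  | insert i I hi ih =>
    simp only [sum_insert hi]
    simpa [ih] using h.lin 1 1 (f i) fun ω => ∑ i ∈ I, f i ω

theorem Fnl.pure {x : Ω} (h : Ba x) : Fnl Ba fun g => g x :=
  ⟨fun _ _ e => e x h, fun _ _ _ _ => rfl, rfl⟩

theorem Fnl.bind (h : Fnl Ba S) {T : Ω → (Ω' → ℝ) → ℝ} (hT : ∀ ω, Ba ω → Fnl Bb (T ω)) :
    Fnl Bb fun g => S fun ω => T ω g :=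
  ⟨fun f g e => h.mono _ _ fun ω a => (hT ω a).mono f g e, fun a b f g =>
    (h.congr fun ω c => (hT ω c).lin a b f g).trans (h.lin _ _ _ _),
    (h.congr fun ω c => (hT ω c).one).trans h.one⟩

theorem fnl_Ex (n : ℕ) : Fnl (fun u => u.length = n) (Ex n) :=
  ⟨fun _ _ => Ex_mono n, Ex_lin n, Ex_const n 1⟩

theorem fnl_tr {N : ℕ} {Ba : Finset (Fin N) → Prop} (E : Finset (Fin N) → ℕ) (m B t : ℕ) :
    ∀ ω, Ba ω → Fnl Ba fun g => (tr Ba E m B)^[t] g ω := by
  induction t with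
  | zero => exact fun ω h => Fnl.pure h
  | succ t ih =>
    intro ω h
    simp only [Function.iterate_succ_apply']
    exact (fnl_Ex _).bind fun w _ => ih _ (cst_mem h w)

/-- A batch of samples. -/
def Bt (S : (Ω → ℝ) → ℝ) : ℕ → (List Ω → ℝ) → List Ω → ℝ
  | 0, H, l => H l
  | M + 1, H, l => S fun ω => Bt S M H (ω :: l)

theorem fnl_Bt (h : Fnl Ba S) (M : ℕ) : ∀ l : List Ω, (∀ ω ∈ l, Ba ω) →
    Fnl (fun l' => l'.length = l.length + M ∧ ∀ ω ∈ l', Ba ω) fun H => Bt S M H l := by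
  induction M with
  | zero => exact fun l hl => Fnl.pure ⟨rfl, hl⟩
  | succ M ih =>
    intro l hl
    refine h.bind fun ω a => ?_
    have := ih (ω :: l) (by simpa using ⟨a, hl⟩)
    rwa [List.length_cons, add_assoc, add_comm 1] at this

theorem Bt_exp (h : Fnl Ba S) (q : Ω → Bool) (x c : ℝ) (M : ℕ) : ∀ l : List Ω,
    Bt S M (fun l' => Real.exp (x * l'.countP q + c)) l = Real.exp (x * l.countP q + c) *
      (1 + (Real.exp x - 1) * S fun ω => if q ω then 1 else 0) ^ M := by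
  induction M with
  | zero => intro l; simp [Bt]
  | succ M ih =>
    intro l
    simp only [Bt, ih]
    rw [pow_succ]
    generalize (1 + (Real.exp x - 1) * S fun ω => if q ω then 1 else 0) ^ M = r
    have := h.lin (Real.exp (x * l.countP q + c) * r) (Real.exp (x * l.countP q + c) * r * (Real.exp x - 1))
      (fun _ => 1) fun ω => if q ω then 1 else 0
    rw [h.one] at this
    refine (h.congr fun ω _ => ?_).trans (this.trans (by ring))
    rw [List.countP_cons]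
    split_ifs
    · rw [Nat.cast_succ, mul_add, add_right_comm, Real.exp_add _ (x * 1), mul_one]
      ring
    · simp

theorem Bt_tail (h : Fnl Ba S) (q : Ω → Bool) {x γ θ : ℝ} (M : ℕ) (hγ : γ ≤ 1) (hx : |x| = γ)
    (hθ : |(S fun ω => if q ω then 1 else 0) - θ| ≤ γ) :
    Bt S M (fun l => Real.exp (x * l.countP q + (-(x * M * θ) - 3 * γ ^ 2 * M))) [] ≤
      Real.exp (-(M * γ ^ 2)) := by
  rw [Bt_exp h]
  have s0 : 0 ≤ S fun ω => if q ω then 1 else 0 :=
    (h.const 0).ge.trans (h.mono _ _ fun ω _ => by split_ifs <;> norm_num)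
  have s1 : (S fun ω => if q ω then 1 else 0) ≤ 1 :=
    (h.mono _ _ fun ω _ => by split_ifs <;> norm_num).trans h.one.le
  generalize (S fun ω => if q ω then 1 else 0) = s at *
  have a1 := (abs_le.1 (Real.abs_exp_sub_one_sub_id_le (hx.trans_le hγ))).2
  have a2 : x ^ 2 = γ ^ 2 := by rw [← hx, sq_abs]
  have a3 : x * (s - θ) ≤ γ ^ 2 := by
    rw [sq]
    exact (le_abs_self _).trans (by rw [abs_mul, hx]; exact mul_le_mul_of_nonneg_left hθ (hx ▸ abs_nonneg x))
  have a4 : 1 + (Real.exp x - 1) * s ≤ Real.exp (x * s + γ ^ 2) := by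
    nlinarith [Real.add_one_le_exp (x * s + γ ^ 2), mul_le_mul_of_nonneg_right a1 s0,
      mul_le_mul_of_nonneg_left s1 (sq_nonneg x)]
  refine (mul_le_mul_of_nonneg_left (pow_le_pow_left₀ (by nlinarith [Real.exp_pos x]) a4 M)
    (Real.exp_pos _).le).trans ?_
  rw [← Real.exp_nat_mul, ← Real.exp_add, Real.exp_le_exp]
  simp only [List.countP_nil, Nat.cast_zero]
  nlinarith [mul_le_mul_of_nonneg_left a3 (Nat.cast_nonneg (α := ℝ) M)]

theorem Bt_ge (h : Fnl Ba S) {ι : Type} (I : Finset ι) (q : ι → Ω → Bool) (θ : ι → ℝ) {γ c : ℝ} (M : ℕ)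
    (h0 : 0 < γ) (hγ : γ ≤ 1) (hθ : ∀ i ∈ I, |(S fun ω => if q i ω then 1 else 0) - θ i| ≤ γ)
    (H : List Ω → ℝ) (hc : c ≤ 1) (H0 : ∀ l, 0 ≤ H l) (hH : ∀ l, l.length = M → (∀ ω ∈ l, Ba ω) →
      (∀ i ∈ I, |(l.countP (q i) : ℝ) - M * θ i| ≤ 3 * γ * M) → c ≤ H l) :
    c - I.card * (2 * Real.exp (-(M * γ ^ 2))) ≤ Bt S M H [] := by
  have f := fnl_Bt h M [] (by simp)
  set bad : ι → List Ω → ℝ := fun i l =>
    1 * Real.exp (γ * l.countP (q i) + (-(γ * M * θ i) - 3 * γ ^ 2 * M)) +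
      1 * Real.exp (-γ * l.countP (q i) + (-(-γ * M * θ i) - 3 * γ ^ 2 * M)) with hb
  have b0 : ∀ i l, 0 ≤ bad i l := fun i l => by positivity
  refine le_trans ?_ (f.mono (fun l => c * 1 + -1 * ∑ i ∈ I, bad i l) H fun l hl => ?_)
  · have := sum_le_card_nsmul I (fun i => Bt S M (bad i) []) (2 * Real.exp (-(M * γ ^ 2))) fun i hi => by
      have := f.lin 1 1 (fun l => Real.exp (γ * l.countP (q i) + (-(γ * M * θ i) - 3 * γ ^ 2 * M)))
        fun l => Real.exp (-γ * l.countP (q i) + (-(-γ * M * θ i) - 3 * γ ^ 2 * M))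
      linarith [Bt_tail h (q i) M hγ (abs_of_pos h0) (hθ i hi),
        Bt_tail h (q i) M hγ ((abs_neg γ).trans (abs_of_pos h0)) (hθ i hi)]
    have e := f.lin c (-1) (fun _ => 1) fun l => ∑ i ∈ I, bad i l
    have e2 := f.sum I bad
    have e3 := f.one
    rw [nsmul_eq_mul] at this
    beta_reduce at *
    rw [e, e2, e3]
    linarith
  · by_cases g : ∀ i ∈ I, |(l.countP (q i) : ℝ) - M * θ i| ≤ 3 * γ * M
    · linarith [hH l (by simpa using hl.1) hl.2 g, sum_nonneg fun i (_ : i ∈ I) => b0 i l]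
    · push Not at g
      obtain ⟨i, hi, g⟩ := g
      have : 1 ≤ bad i l := by
        rw [hb]
        beta_reduce
        rcases lt_abs.1 g with g | g
        · have := Real.one_le_exp (x := γ * l.countP (q i) + (-(γ * M * θ i) - 3 * γ ^ 2 * M))
            (by nlinarith [mul_lt_mul_of_pos_left g h0])
          linarith [Real.exp_pos (-γ * l.countP (q i) + (-(-γ * M * θ i) - 3 * γ ^ 2 * M))]
        · have := Real.one_le_exp (x := -γ * l.countP (q i) + (-(-γ * M * θ i) - 3 * γ ^ 2 * M))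
            (by nlinarith [mul_lt_mul_of_pos_left g h0])
          linarith [Real.exp_pos (γ * l.countP (q i) + (-(γ * M * θ i) - 3 * γ ^ 2 * M))]
      linarith [H0 l, single_le_sum (fun i (_ : i ∈ I) => b0 i l) hi]

end Vale.Agent.P317
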