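import Vale.Agent.P317.Sem

/-! One round of the algorithm preserves the invariant when the samples are typical. -/

namespace Vale.Agent.P317

open Finset Vale.Agent.Common.TreeTM Vale.Agent.P337

/-- Multiplicative closeness. -/
def Ap (e x y : ℝ) : Prop := 0 ≤ x ∧ 0 ≤ y ∧ (1 - e) * x ≤ y ∧ (1 - e) * y ≤ x

theorem Ap.mono {e e' x y : ℝ} (h : Ap e x y) (he : e ≤ e') : Ap e' x y :=
  ⟨h.1, h.2.1, by nlinarith [h.1, h.2.2.1], by nlinarith [h.2.1, h.2.2.2]⟩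

theorem Ap.mul {e e' x y x' y' : ℝ} (h : Ap e x y) (h' : Ap e' x' y') (he : 0 ≤ e) (he' : 0 ≤ e') :
    Ap (e + e') (x * x') (y * y') := by
  have k : ∀ x y x' y' : ℝ, 0 ≤ x → 0 ≤ y → 0 ≤ x' → 0 ≤ y' → (1 - e) * x ≤ y → (1 - e') * x' ≤ y' →
      (1 - (e + e')) * (x * x') ≤ y * y' := fun x y x' y' a b c d f g => by
    rcases le_total (1 - (e + e')) 0 with t | t
    · nlinarith [mul_nonneg a c, mul_nonneg b d]
    · nlinarith [mul_le_mul f g (mul_nonneg (by linarith) c) b, mul_nonneg (mul_nonneg he he') (mul_nonneg a c)]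
  exact ⟨mul_nonneg h.1 h'.1, mul_nonneg h.2.1 h'.2.1, k _ _ _ _ h.1 h.2.1 h'.1 h'.2.1 h.2.2.1 h'.2.2.1,
    k _ _ _ _ h.2.1 h.1 h'.2.1 h'.1 h.2.2.2 h'.2.2.2⟩

theorem Ap.of_abs {d x y : ℝ} (h : |x - y| ≤ d) (hx : 0 ≤ x) (hy : 1 / 4 ≤ y) : Ap (4 * d) x y := by
  have := (abs_nonneg _).trans h
  obtain ⟨a, b⟩ := abs_le.1 h
  refine ⟨hx, by linarith, ?_, by nlinarith⟩
  rcases le_total x y with t | t <;> nlinarith

theorem pin_succ {P : ℕ} (hP : 0 < P) (j k : ℕ) :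
    pin P j k = pin P (j + 1) k + if k = j / P ^ 2 then 1 else 0 := by
  have h1 := Nat.div_add_mod' j (P ^ 2)
  have h2 := Nat.mod_lt j (pow_pos hP 2)
  unfold pin
  generalize P ^ 2 = b at *
  generalize j % b = r at *
  generalize j / b = q at *
  rcases lt_trichotomy k q with h | h | h
  · have := Nat.mul_le_mul_right b (Nat.succ_le_of_lt h)
    rw [Nat.succ_mul] at this
    rw [if_neg h.ne]
    omega
  · rw [if_pos h, h]
    omega
  · have := Nat.mul_le_mul_right b (Nat.succ_le_of_lt h)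
    rw [Nat.succ_mul] at this
    rw [if_neg h.ne']
    omega

variable {n P L : ℕ} {ω0 : Finset (Fin (n + n))}

theorem EE_pin (hP : 0 < P) {j : ℕ} {a : Fin (n + n)} (ha : j / P ^ 2 = a) (u : List ℕ)
    (ω : Finset (Fin (n + n))) :
    EE P L ω0 u j ω = EE P L ω0 u (j + 1) ω + if ¬(a ∈ ω ↔ a ∈ ω0) then 1 else 0 := by
  rw [EE, EE, eng, eng, add_right_comm, ← Fintype.sum_ite_eq' a fun _ => if ¬(a ∈ ω ↔ a ∈ ω0) then 1 else 0,
    ← sum_add_distrib]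
  congr 1
  refine sum_congr rfl fun b _ => ?_
  rw [pin_succ hP j b, ha]
  by_cases c : b = a
  · subst c
    by_cases d : b ∈ ω <;> by_cases e : b ∈ ω0 <;> simp [d, e, add_right_comm]
  · simp [c, Fin.val_ne_of_ne c]

/-- The penalty part of the energy. -/
def FF (u : List ℕ) (ω : Finset (Fin (n + n))) : ℕ := ∑ a, if a ∈ ω then u.countP (neq a) else 0

theorem FF_cons (b : Fin (n + n)) (u : List ℕ) (ω : Finset (Fin (n + n))) :
    FF (b :: u) ω = FF u ω + if b ∈ ω then 1 else 0 := by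
  rw [FF, FF, ← Fintype.sum_ite_eq' b fun _ => if b ∈ ω then 1 else 0, ← sum_add_distrib]
  refine sum_congr rfl fun a _ => ?_
  by_cases c : a = b
  · by_cases d : b ∈ ω <;> simp [c, d, neq]
  · simp [c, neq, Fin.val_ne_of_ne c]

theorem EE_late {j : ℕ} (hj : (n + n) * P ^ 2 ≤ j) (u : List ℕ) (ω : Finset (Fin (n + n))) :
    EE P L ω0 u j ω = FF u ω + ∑ e, if xx e ∈ ω ∧ yy e ∈ ω then 2 * L else 0 := by
  have : ∀ a : Fin (n + n), pin P j a = 0 := fun a => by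
    have := Nat.mul_le_mul_right (P ^ 2) (Nat.succ_le_of_lt a.2)
    rw [Nat.succ_mul] at this
    unfold pin
    omega
  simp [EE, eng, FF, this]

theorem EE_le (hP : 64 * (n + 2) ≤ P) (hL : L ≤ P) {u : List ℕ} (hu : u.length ≤ 2 * P ^ 2) (j : ℕ)
    (ω : Finset (Fin (n + n))) : EE P L ω0 u j ω ≤ P ^ 4 := by
  have a1 := sum_le_card_nsmul univ (fun a : Fin (n + n) => if a ∈ ω then
    (if a ∈ ω0 then 0 else pin P j a) + u.countP (neq a) else if a ∈ ω0 then pin P j a else 0)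
    (3 * P ^ 2) fun a _ => by
      have : pin P j a ≤ P ^ 2 := Nat.sub_le _ _
      have : u.countP (neq a) ≤ u.length := List.countP_le_length
      split_ifs <;> omega
  have a2 := sum_le_card_nsmul univ (fun e : Fin n => if xx e ∈ ω ∧ yy e ∈ ω then 2 * L else 0) (2 * P)
    fun a _ => by split_ifs <;> omega
  rw [card_univ, Fintype.card_fin, smul_eq_mul] at a1 a2
  refine (add_le_add a1 a2).trans ?_
  have b1 := Nat.mul_le_mul_right (P ^ 2) (show 8 * n ≤ P ^ 2 by nlinarith)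
  nlinarith [Nat.mul_le_mul_left n (show P ≤ P ^ 2 by nlinarith)]

/-- The mean of an event. -/
noncomputable def av (π : Finset (Fin (n + n)) → ℝ) (q : Finset (Fin (n + n)) → Bool) : ℝ :=
  (∑ ω, π ω * if q ω then 1 else 0) / ∑ ω, π ω

variable {M₁ M₂ : Matroid (Fin n)}

theorem Z_pos (h0 : Bas M₁ M₂ ω0) (E : Finset (Fin (n + n)) → ℕ) : 0 < ∑ ω, gw M₁ M₂ E ω :=
  sum_pos' (fun ω _ => gw_nonneg _ _ _ _) ⟨ω0, mem_univ _, by rw [gw, if_pos h0]; positivity⟩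

theorem av_nonneg (E : Finset (Fin (n + n)) → ℕ) (q : Finset (Fin (n + n)) → Bool) :
    0 ≤ av (gw M₁ M₂ E) q :=
  div_nonneg (sum_nonneg fun ω _ => mul_nonneg (gw_nonneg _ _ _ _) (by split_ifs <;> norm_num))
    (sum_nonneg fun ω _ => gw_nonneg _ _ _ _)

theorem av_le (h0 : Bas M₁ M₂ ω0) (E : Finset (Fin (n + n)) → ℕ) (q : Finset (Fin (n + n)) → Bool) :
    av (gw M₁ M₂ E) q ≤ 1 :=
  (div_le_one (Z_pos h0 E)).2 (sum_le_sum fun ω _ =>
    mul_le_of_le_one_right (gw_nonneg _ _ _ _) (by split_ifs <;> norm_num))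

theorem Z_le (E : Finset (Fin (n + n)) → ℕ) : ∑ ω, gw M₁ M₂ E ω ≤ 4 ^ n := by
  have := sum_le_card_nsmul univ (gw M₁ M₂ E) 1 fun ω _ => by
    unfold gw
    split_ifs
    · exact pow_le_one₀ (by norm_num) (by norm_num)
    · norm_num
  rw [show (4 : ℝ) = 2 * 2 by norm_num, mul_pow, ← pow_add]
  simpa using this

theorem ratio (h0 : Bas M₁ M₂ ω0) {E : Finset (Fin (n + n)) → ℕ} {π : Finset (Fin (n + n)) → ℝ}
    {q r : Finset (Fin (n + n)) → Bool} {a b c : ℝ} (h : ∀ ω, π ω = gw M₁ M₂ E ω *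
      (a + b * (if q ω then 1 else 0) + c * if r ω then 1 else 0)) : ∑ ω, π ω =
      (∑ ω, gw M₁ M₂ E ω) * (a + b * av (gw M₁ M₂ E) q + c * av (gw M₁ M₂ E) r) := by
  have := (Z_pos h0 E).ne'
  simp only [h, av, mul_add, sum_add_distrib, mul_left_comm (gw _ _ _ _), ← mul_sum, ← sum_mul]
  field_simp

/-- No doubly occupied site. -/
def Tv (ω : Finset (Fin (n + n))) : Prop := ∀ e, ¬(xx e ∈ ω ∧ yy e ∈ ω)

theorem lf_rt (hr : rk M₁ univ = rk M₂ univ) {ω : Finset (Fin (n + n))} (h : Bas M₁ M₂ ω) (t : Tv ω) :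
    lf ω = rt ω :=
  eq_of_subset_of_card_le (fun e he => by
    simp only [lf, rt, mem_filter, mem_univ, true_and] at he ⊢
    exact fun c => t e ⟨he, c⟩) (by rw [((base_iff _ _).1 h.1).2, ((base_iff _ _).1 h.2).2, hr])

variable (M₁ M₂) in
open Classical in
/-- The number of common bases. -/
noncomputable def NN : ℝ := ∑ ω, if Bas M₁ M₂ ω ∧ Tv ω then 1 else 0

/-- The estimate. -/
noncomputable def est (M D : ℕ) (f : List ℕ) : ℝ := (f.prod : ℝ) / (((2 * M) ^ f.length * D : ℕ) : ℝ)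

theorem est_cons (M D c : ℕ) (f : List ℕ) : est M D (c :: f) = est M D f * (c / (2 * M)) := by
  simp only [est, List.prod_cons, List.length_cons, pow_succ]
  push_cast
  ring

variable (M₁ M₂ P L ω0) in
/-- The invariant before round `j`. -/
structure Inv (D j : ℕ) (u f : List ℕ) (d : Bool) : Prop where
  len : u.length ≤ 2 * (j - (n + n) * P ^ 2)
  nd : j ≤ (n + n) * P ^ 2 → d = false
  ap : Ap (20 / P ^ 5 * (j + 1)) (if d then NN M₁ M₂ else
    (∑ ω, gw M₁ M₂ (EE P L ω0 u j) ω) * 2 ^ (j - (n + n) * P ^ 2)) (est (P ^ 12) D f)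
  tv : d = false → ∀ ω, Bas M₁ M₂ ω → Tv ω → FF u ω = j - (n + n) * P ^ 2
  dec : d = false → (∑ ω, gw M₁ M₂ (EE P L ω0 u j) ω) * 2 ^ (j - (n + n) * P ^ 2) ≤
    4 ^ n * (1 - 1 / (8 * (n + 1))) ^ (j - (n + n) * P ^ 2)

theorem ap_step {P j D c : ℕ} {f : List ℕ} {x x' : ℝ} (h : Ap (20 / P ^ 5 * (j + 1)) x (est (P ^ 12) D f))
    (h1 : |x' - c / (2 * (P ^ 12 : ℕ))| ≤ 5 / P ^ 5) (h2 : 0 ≤ x') (h3 : (1 / 4 : ℝ) ≤ c / (2 * (P ^ 12 : ℕ))) :
    Ap (20 / P ^ 5 * ((j + 1 : ℕ) + 1)) (x * x') (est (P ^ 12) D (c :: f)) := by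
  rw [est_cons]
  exact (h.mul (Ap.of_abs h1 h2 h3) (by positivity) (by positivity)).mono (le_of_eq (by push_cast; ring))

theorem cl_div {P c : ℕ} {θ : ℝ} (hP : 0 < P)
    (h : |(c : ℝ) - (P ^ 12 : ℕ) * θ| ≤ 3 * (1 / P ^ 5) * (P ^ 12 : ℕ)) :
    |θ - c / (P ^ 12 : ℕ)| ≤ 3 / P ^ 5 := by
  have : (0 : ℝ) < (P ^ 12 : ℕ) := by positivity
  generalize ((P ^ 12 : ℕ) : ℝ) = M at *
  rw [abs_sub_comm, show c / M - θ = (c - M * θ) / M by field_simp, abs_div, abs_of_pos this,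
    div_le_iff₀ this]
  exact h.trans (le_of_eq (by ring))

variable {U : List Bool}

theorem cover (hU : n + n ≤ U.length) (l : List (Finset (Fin (n + n)))) :
    l.length ≤ l.countP (fun ω => trv (n, P, U) (lst ω)) +
      ∑ e : Fin n, l.countP fun ω => dbl (n, P, U) (lst ω) e := by
  induction l with
  | nil => simp
  | cons ω l ih =>
    simp only [List.length_cons, List.countP_cons, sum_add_distrib]
    by_cases c : trv (n, P, U) (lst ω) = true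
    · rw [if_pos c]
      omega
    · rw [trv_lst hU, decide_eq_true_iff, not_forall] at c
      obtain ⟨e, he⟩ := c
      have := single_le_sum (f := fun e : Fin n => if dbl (n, P, U) (lst ω) e = true then 1 else 0)
        (fun _ _ => Nat.zero_le _) (mem_univ e)
      rw [dbl_lst, if_pos (decide_eq_true (not_not.1 he))] at this
      omega

theorem pick_spec (hU : n + n ≤ U.length) (l : List (Finset (Fin (n + n)))) (hl : l.length = P ^ 12)
    (h : 4 * l.countP (fun ω => trv (n, P, U) (lst ω)) < P ^ 12) :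
    ∃ e : Fin n, pick (n, P, U) (l.map lst) = e ∧
      3 * P ^ 12 ≤ 4 * n * l.countP fun ω => dbl (n, P, U) (lst ω) e := by
  have a1 := cover (P := P) hU l
  have : ∃ e : Fin n, 3 * P ^ 12 ≤ 4 * n * l.countP fun ω => dbl (n, P, U) (lst ω) e := by
    by_contra c
    push Not at c
    have a2 := sum_le_card_nsmul univ _ _ fun e _ => (c e).le
    rw [card_univ, Fintype.card_fin, smul_eq_mul, ← mul_sum, mul_comm 4, mul_assoc] at a2
    rcases Nat.eq_zero_or_pos n with rfl | h0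
    · simp only [univ_eq_empty, sum_empty] at a1
      omega
    · have := Nat.le_of_mul_le_mul_left a2 h0
      omega
  obtain ⟨e, he⟩ := this
  rw [pick, rg_eq (by omega)]
  generalize hF : List.filter _ _ = F
  have m : ∀ x, x ∈ F ↔ x < n ∧ 3 * P ^ 12 ≤ 4 * n * l.countP fun ω => dbl (n, P, U) (lst ω) x := fun x => by
    simp [← hF, nlt, MM, List.countP_map, Function.comp_def]
  cases F with
  | nil => simpa using (m e).2 ⟨e.2, he⟩
  | cons x F =>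
    obtain ⟨h1, h2⟩ := (m x).1 (by simp)
    exact ⟨⟨x, h1⟩, min_eq_left h1.le, h2⟩

theorem inv_pin (h0 : Bas M₁ M₂ ω0) (P0 : 0 < P) {D j c : ℕ} {u f : List ℕ}
    (h : Inv P L ω0 M₁ M₂ D j u f false) (hj : j < (n + n) * P ^ 2) {a : Fin (n + n)} (ha : j / P ^ 2 = a)
    (g : |av (gw M₁ M₂ (EE P L ω0 u j)) (fun ω => dif (lst ω) (lst ω0) a) - c / (P ^ 12 : ℕ)| ≤ 3 / P ^ 5) :
    Inv P L ω0 M₁ M₂ D (j + 1) u ((2 * P ^ 12 + 2 * c) :: f) false := by
  have M0 : (0 : ℝ) < (P ^ 12 : ℕ) := by positivity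
  have g0 : (0 : ℝ) < 1 / P ^ 5 := by positivity
  have ap := h.ap
  have e1 : j - (n + n) * P ^ 2 = 0 := by omega
  have e2 : j + 1 - (n + n) * P ^ 2 = 0 := by omega
  refine ⟨e2 ▸ e1 ▸ h.len, fun _ => rfl, ?_, e2 ▸ e1 ▸ h.tv, fun _ => by simpa [e2] using Z_le _⟩
  have := av_nonneg (M₁ := M₁) (M₂ := M₂) (EE P L ω0 u j) fun ω => dif (lst ω) (lst ω0) a
  simp only [e1, e2, Bool.false_eq_true, if_false, pow_zero, mul_one] at ap ⊢
  rw [ratio h0 (E := EE P L ω0 u j) (q := fun ω => dif (lst ω) (lst ω0) a) (r := fun _ => true)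
    (a := 1) (b := 1) (c := 0) fun ω => by
      rw [gw, gw, EE_pin P0 ha, dif_lst]
      by_cases c : (a ∈ ω ↔ a ∈ ω0) <;> split_ifs <;> simp_all [pow_succ] <;> ring]
  have e3 : ((2 * P ^ 12 + 2 * c : ℕ) : ℝ) / (2 * (P ^ 12 : ℕ)) = 1 + c / (P ^ 12 : ℕ) := by
    rw [Nat.cast_add, Nat.cast_mul, Nat.cast_mul]
    field_simp
    norm_num
  rw [abs_le] at g
  refine ap_step ap ?_ (by linarith) ?_ <;> rw [e3]
  · rw [abs_le]
    constructor <;> linarith [g.1, g.2, show (5 : ℝ) / P ^ 5 = 3 / P ^ 5 + 2 * (1 / P ^ 5) by ring]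
  · linarith [show (0 : ℝ) ≤ c / (P ^ 12 : ℕ) by positivity]

theorem decay {n P L c : ℕ} {x y : ℝ} (hn : 0 < n) (hP : 64 * (n + 2) ≤ P) (hL : 32 * n ≤ 2 ^ L)
    (k : 3 * P ^ 12 ≤ 4 * n * c) (g : |x - c / (P ^ 12 : ℕ)| ≤ 3 / P ^ 5) (hy : 0 ≤ y)
    (a : x * y ≤ 2 * (1 / 4) ^ L) : 1 + 1 * y + -1 / 2 * x ≤ 1 - 1 / (8 * (n + 1)) := by
  have P0 : 0 < P := by omega
  have M0 : (0 : ℝ) < (P ^ 12 : ℕ) := by positivity
  have n0 : (0 : ℝ) < n := by exact_mod_cast hn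
  have b1 : 3 / (4 * n : ℝ) ≤ c / (P ^ 12 : ℕ) := by
    rw [div_le_div_iff₀ (by positivity) M0, mul_comm (_ : ℝ) (4 * n)]
    exact_mod_cast k
  have b2 : (3 : ℝ) / P ^ 5 ≤ 1 / (4 * n) := by
    rw [div_le_div_iff₀ (by positivity) (by positivity)]
    have := Nat.le_self_pow (n := 5) (by norm_num) P
    exact_mod_cast (by omega : 3 * (4 * n) ≤ 1 * P ^ 5)
  have b3 : (1 / 4 : ℝ) ^ L ≤ (1 / n) ^ 2 / 1024 := by
    have : (32 * n : ℝ) ≤ 2 ^ L := by exact_mod_cast hL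
    rw [show (1 / 4 : ℝ) ^ L = (1 / 2 ^ L) ^ 2 by rw [← one_div_pow, ← pow_mul, mul_comm, pow_mul]; norm_num,
      show (1 / n : ℝ) ^ 2 / 1024 = (1 / (32 * n)) ^ 2 by field_simp; norm_num]
    gcongr
  have i0 : (0 : ℝ) < 1 / n := by positivity
  rw [show 3 / (4 * n : ℝ) = 3 / 4 * (1 / n) by field_simp] at b1
  rw [show 1 / (4 * n : ℝ) = 1 / 4 * (1 / n) by field_simp] at b2
  have b6 : 1 / (8 * (n + 1) : ℝ) ≤ 1 / 8 * (1 / n) := by
    rw [one_div_mul_one_div]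
    gcongr
    linarith
  generalize (1 : ℝ) / n = i at *
  have b5 : i / 2 ≤ x := by linarith [(abs_le.1 g).1]
  have b4 : y ≤ i / 8 := le_of_mul_le_mul_left (by nlinarith [mul_le_mul_of_nonneg_right b5 hy]) i0
  linarith

theorem inv_fld (hr : rk M₁ univ = rk M₂ univ) (h0 : Bas M₁ M₂ ω0) (hP : 64 * (n + 2) ≤ P)
    (hL : 32 * n ≤ 2 ^ L) {D j c d : ℕ} {u f : List ℕ} (h : Inv P L ω0 M₁ M₂ D j u f false)
    (hj : (n + n) * P ^ 2 ≤ j) (e : Fin n) (k : 3 * P ^ 12 ≤ 4 * n * d) (hd : d ≤ P ^ 12)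
    (g1 : |av (gw M₁ M₂ (EE P L ω0 u j)) (fun ω => dbl (n, P, U) (lst ω) e) - d / (P ^ 12 : ℕ)| ≤ 3 / P ^ 5)
    (g2 : |av (gw M₁ M₂ (EE P L ω0 u j)) (fun ω => emp (n, P, U) (lst ω) e) - c / (P ^ 12 : ℕ)| ≤ 3 / P ^ 5) :
    Inv P L ω0 M₁ M₂ D (j + 1) (e :: (n + e) :: u) ((2 * P ^ 12 + 2 * c - d) :: f) false := by
  have P0 : 0 < P := by omega
  have M0 : (0 : ℝ) < (P ^ 12 : ℕ) := by positivity
  have g0 : (0 : ℝ) < 1 / P ^ 5 := by positivity
  have e1 : j + 1 - (n + n) * P ^ 2 = j - (n + n) * P ^ 2 + 1 := by omega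
  have F : ∀ ω, FF (e :: (n + e) :: u) ω = FF u ω + (if yy e ∈ ω then 1 else 0) +
      if xx e ∈ ω then 1 else 0 := fun ω => by rw [← FF_cons, ← FF_cons]; rfl
  have R := ratio h0 (π := fun ω => gw M₁ M₂ (EE P L ω0 (e :: (n + e) :: u) (j + 1)) ω * 2)
    (E := EE P L ω0 u j) (q := fun ω => emp (n, P, U) (lst ω) e) (r := fun ω => dbl (n, P, U) (lst ω) e)
    (a := 1) (b := 1) (c := -1 / 2) fun ω => by
      rw [gw, gw, EE_late hj, EE_late (hj.trans j.le_succ), F, emp_lst, dbl_lst]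
      generalize FF u ω = x, (∑ e, if xx e ∈ ω ∧ yy e ∈ ω then 2 * L else 0) = y
      by_cases b : Bas M₁ M₂ ω
      · by_cases c : xx e ∈ ω <;> by_cases d : yy e ∈ ω <;> simp [b, c, d, pow_add] <;> ring
      · simp [b]
  have a1 := av_le h0 (EE P L ω0 u j) fun ω => dbl (n, P, U) (lst ω) e
  have a2 := av_nonneg (M₁ := M₁) (M₂ := M₂) (EE P L ω0 u j) fun ω => emp (n, P, U) (lst ω) e
  have a3 : av (gw M₁ M₂ (EE P L ω0 u j)) (fun ω => dbl (n, P, U) (lst ω) e) *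
      av (gw M₁ M₂ (EE P L ω0 u j)) (fun ω => emp (n, P, U) (lst ω) e) ≤ 2 * (1 / 4) ^ L := by
    rw [av, av, div_mul_div_comm, div_le_iff₀ (mul_pos (Z_pos h0 _) (Z_pos h0 _)), ← sq]
    simp only [dbl_lst, emp_lst, decide_eq_true_iff]
    exact gw_pair hr h0 _ _ L e
  have a4 := decay e.pos hP hL k g1 a2 a3
  rw [← sum_mul] at R
  have E : ∀ x : ℝ, x * 2 ^ (j + 1 - (n + n) * P ^ 2) = x * 2 * 2 ^ (j - (n + n) * P ^ 2) := fun x => by
    rw [e1]; ring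
  have := h.len
  refine ⟨by simp only [List.length_cons]; omega, fun _ => rfl, ?_, fun _ ω b1 b2 => ?_, fun _ => ?_⟩
  · simp only [Bool.false_eq_true, if_false]
    rw [E, R, mul_right_comm]
    have e3 : ((2 * P ^ 12 + 2 * c - d : ℕ) : ℝ) / (2 * (P ^ 12 : ℕ)) =
        1 + c / (P ^ 12 : ℕ) - d / (P ^ 12 : ℕ) / 2 := by
      rw [Nat.cast_sub (by omega), Nat.cast_add, Nat.cast_mul, Nat.cast_mul]
      field_simp
      push_cast
      ring
    rw [abs_le] at g1 g2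
    refine ap_step h.ap ?_ (by linarith) ?_ <;> rw [e3]
    · rw [abs_le]
      constructor <;> linarith [show (5 : ℝ) / P ^ 5 = 5 * (1 / P ^ 5) by ring,
        show (3 : ℝ) / P ^ 5 = 3 * (1 / P ^ 5) by ring]
    · linarith [show (0 : ℝ) ≤ c / (P ^ 12 : ℕ) by positivity, (div_le_one M0).2 (Nat.cast_le.2 hd)]
  · have : xx e ∈ ω ↔ yy e ∉ ω := by simpa [lf, rt] using Finset.ext_iff.1 (lf_rt hr b1 b2) e
    rw [F, h.tv rfl ω b1 b2, e1]
    by_cases c : yy e ∈ ω <;> simp [this, c]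
  · rw [E, R, mul_right_comm, e1, pow_succ (1 - _ : ℝ), ← mul_assoc]
    exact mul_le_mul (h.dec rfl) a4 (by linarith) (mul_nonneg (by positivity) (pow_nonneg (by linarith) _))

theorem NN_eq (h0 : Bas M₁ M₂ ω0) (hU : n + n ≤ U.length) {D j : ℕ} {u f : List ℕ}
    (h : Inv P L ω0 M₁ M₂ D j u f false) (hj : (n + n) * P ^ 2 ≤ j) :
    NN M₁ M₂ = (∑ ω, gw M₁ M₂ (EE P L ω0 u j) ω) * 2 ^ (j - (n + n) * P ^ 2) *
      av (gw M₁ M₂ (EE P L ω0 u j)) fun ω => trv (n, P, U) (lst ω) := by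
  rw [NN, ratio h0 (E := EE P L ω0 u j) (q := fun ω => trv (n, P, U) (lst ω)) (r := fun _ => true)
    (a := 0) (b := 2 ^ (j - (n + n) * P ^ 2)) (c := 0) fun ω => ?_]
  · ring
  rw [gw, trv_lst hU, EE_late hj]
  by_cases b1 : Bas M₁ M₂ ω
  · by_cases b2 : Tv ω
    · rw [h.tv rfl ω b1 b2, if_pos ⟨b1, b2⟩, if_pos b1, if_pos (decide_eq_true (p := ∀ e, _) b2),
        sum_eq_zero fun e _ => if_neg (b2 e)]
      simp
    · rw [if_neg fun c => b2 c.2, decide_eq_false (p := ∀ e, _) b2]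
      simp
  · simp [b1]

theorem inv_fin (h0 : Bas M₁ M₂ ω0) (hU : n + n ≤ U.length) (P0 : 0 < P) {D j c : ℕ} {u f : List ℕ}
    (h : Inv P L ω0 M₁ M₂ D j u f false) (hj : (n + n) * P ^ 2 ≤ j) (k : P ^ 12 ≤ 4 * c)
    (g : |av (gw M₁ M₂ (EE P L ω0 u j)) (fun ω => trv (n, P, U) (lst ω)) - c / (P ^ 12 : ℕ)| ≤ 3 / P ^ 5) :
    Inv P L ω0 M₁ M₂ D (j + 1) u (2 * c :: f) true := by
  have M0 : (0 : ℝ) < (P ^ 12 : ℕ) := by positivity
  have g0 : (0 : ℝ) < 1 / P ^ 5 := by positivity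
  have := h.len
  refine ⟨by omega, fun _ => by omega, ?_, nofun, nofun⟩
  have R := NN_eq h0 hU h hj
  have e3 : ((2 * c : ℕ) : ℝ) / (2 * (P ^ 12 : ℕ)) = c / (P ^ 12 : ℕ) := by
    rw [Nat.cast_mul]
    field_simp
    push_cast
    ring
  simp only [if_true]
  rw [R]
  refine ap_step h.ap ?_ (av_nonneg _ _) ?_ <;> rw [e3]
  · exact g.trans (by linarith [show (5 : ℝ) / P ^ 5 = 3 / P ^ 5 + 2 * (1 / P ^ 5) by ring])
  · rw [div_le_div_iff₀ (by norm_num) M0]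
    exact_mod_cast (by omega : 1 * P ^ 12 ≤ c * 4)

theorem round (hr : rk M₁ univ = rk M₂ univ) (h0 : Bas M₁ M₂ ω0) (hU : n + n ≤ U.length)
    (hP : 64 * (n + 2) ≤ P) (hL : 32 * n ≤ 2 ^ L) {D j : ℕ} {u f : List ℕ} {d : Bool}
    (h : Inv P L ω0 M₁ M₂ D j u f d) (l : List (Finset (Fin (n + n)))) (hl : l.length = P ^ 12)
    (hg : ∀ q, ((∃ a : Fin (n + n), q = fun ω => dif (lst ω) (lst ω0) a) ∨
      (∃ e : Fin n, q = fun ω => dbl (n, P, U) (lst ω) e) ∨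
      (∃ e : Fin n, q = fun ω => emp (n, P, U) (lst ω) e) ∨ q = fun ω => trv (n, P, U) (lst ω)) →
      |av (gw M₁ M₂ (EE P L ω0 u j)) q - l.countP q / (P ^ 12 : ℕ)| ≤ 3 / P ^ 5) :
    ∃ u' f' d', endr (n, P, U) j (lst ω0, l.map lst, u, f, d) = (lst ω0, [], u', f', d') ∧
      Inv P L ω0 M₁ M₂ D (j + 1) u' f' d' := by
  have P0 : 0 < P := by omega
  have cM : ∀ q, l.countP q ≤ P ^ 12 := fun q => hl ▸ List.countP_le_length
  rw [endr]
  simp only [List.countP_map, Function.comp_def, MM, JJ]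
  by_cases c : j < (n + n) * P ^ 2
  · obtain rfl := h.nd c.le
    obtain ⟨a, ha⟩ : ∃ a : Fin (n + n), j / P ^ 2 = a :=
      ⟨⟨_, (Nat.div_lt_iff_lt_mul (by positivity)).2 c⟩, rfl⟩
    have := cM fun ω => dif (lst ω) (lst ω0) a
    rw [show nlt j _ = true from decide_eq_true c, Bool.cond_true, ha, min_eq_left (by omega)]
    exact ⟨_, _, _, rfl, inv_pin h0 P0 h c ha (hg _ (Or.inl ⟨a, rfl⟩))⟩
  rw [show nlt j _ = false from decide_eq_false c, Bool.cond_false]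
  have := h.len
  cases d
  swap
  · exact ⟨_, _, _, rfl, by omega, fun _ => by omega, h.ap.mono (mul_le_mul_of_nonneg_left (by simp)
      (by positivity)), nofun, nofun⟩
  rw [Bool.cond_false]
  by_cases t : 4 * l.countP (fun ω => trv (n, P, U) (lst ω)) < P ^ 12
  · obtain ⟨e, he, k⟩ := pick_spec hU l hl t
    have := cM fun ω => dbl (n, P, U) (lst ω) e
    have := cM fun ω => emp (n, P, U) (lst ω) e
    rw [show nlt _ _ = true from decide_eq_true t, Bool.cond_true, he, min_eq_left (by omega)]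
    exact ⟨_, _, _, rfl, inv_fld hr h0 hP hL h (not_lt.1 c) e k (cM _) (hg _ (Or.inr (Or.inl ⟨e, rfl⟩)))
      (hg _ (Or.inr (Or.inr (Or.inl ⟨e, rfl⟩))))⟩
  · have := cM fun ω => trv (n, P, U) (lst ω)
    rw [show nlt _ _ = false from decide_eq_false t, Bool.cond_false, min_eq_left (by omega)]
    exact ⟨_, _, _, rfl, inv_fin h0 hU P0 h (not_lt.1 c) (not_lt.1 t) (hg _ (Or.inr (Or.inr (Or.inr rfl))))⟩

end Vale.Agent.P317
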