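import Vale.Agent.P317.Mat
import Vale.Agent.P337.TCx

/-! Expectations over coin strings and the Metropolis chain. -/

namespace Vale.Agent.P317

open Finset Vale.Agent.P337

/-- Expectation over bit strings of a given length. -/
noncomputable def Ex : ℕ → (List Bool → ℝ) → ℝ
  | 0, g => g []
  | n + 1, g => (Ex n (fun w => g (false :: w)) + Ex n fun w => g (true :: w)) / 2

theorem Ex_eq (n : ℕ) : ∀ g : List Bool → ℝ,
    Ex n g = (∑ w : Fin n → Bool, g (List.ofFn w)) / 2 ^ n := by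
  induction n with
  | zero => intro g; simp [Ex]
  | succ n ih =>
    intro g
    rw [Ex, ih, ih, ← (Fin.consEquiv fun _ => Bool).sum_comp, Fintype.sum_prod_type,
      Fintype.sum_bool, add_comm, ← add_div, div_div, pow_succ]
    simp [Fin.consEquiv]

theorem Ex_mono (n : ℕ) {f g : List Bool → ℝ} (h : ∀ u, u.length = n → f u ≤ g u) : Ex n f ≤ Ex n g := by
  rw [Ex_eq, Ex_eq]
  exact div_le_div_of_nonneg_right (sum_le_sum fun w _ => h _ (by simp)) (by positivity)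

theorem Ex_congr (n : ℕ) {f g : List Bool → ℝ} (h : ∀ u, u.length = n → f u = g u) : Ex n f = Ex n g :=
  le_antisymm (Ex_mono n fun u e => (h u e).le) (Ex_mono n fun u e => (h u e).ge)

theorem Ex_lin (n : ℕ) (a b : ℝ) (f g : List Bool → ℝ) :
    Ex n (fun w => a * f w + b * g w) = a * Ex n f + b * Ex n g := by
  simp only [Ex_eq, sum_add_distrib, ← mul_sum]
  ring

theorem Ex_const (n : ℕ) (c : ℝ) : Ex n (fun _ => c) = c := by
  simp [Ex_eq]

theorem Ex_add (a b : ℕ) : ∀ g : List Bool → ℝ,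
    Ex (a + b) g = Ex a fun u => Ex b fun v => g (u ++ v) := by
  induction a with
  | zero => intro g; simp [Ex]
  | succ a ih => intro g; rw [Nat.succ_add, Ex, Ex, ih, ih]; rfl

theorem Ex_bits (m : ℕ) : ∀ φ : ℕ → ℝ,
    Ex m (fun u => φ (ofBits u)) = (∑ x ∈ range (2 ^ m), φ x) / 2 ^ m := by
  have h : ∀ (φ : ℕ → ℝ) k, ∑ x ∈ range (k * 2), φ x =
      ∑ x ∈ range k, φ (Nat.bit false x) + ∑ x ∈ range k, φ (Nat.bit true x) := fun φ k => by
    induction k with
    | zero => simp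
    | succ k ih =>
      rw [Nat.succ_mul, sum_range_succ, sum_range_succ, ih, sum_range_succ, sum_range_succ]
      simp only [Nat.bit_val, Bool.toNat_false, Bool.toNat_true, add_zero, mul_comm 2 k]
      ring
  induction m with
  | zero => intro φ; simp [Ex, ofBits]
  | succ m ih =>
    intro φ
    simp only [Ex, ofBits_cons]
    rw [ih fun x => φ (Nat.bit false x), ih fun x => φ (Nat.bit true x), pow_succ, h, pow_succ]
    ring

theorem Ex_acc (a c : ℝ) (d : ℕ) : ∀ B, d ≤ B →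
    Ex B (fun z => bif (z.take d).all (!·) then a else c) = c + (1 / 2) ^ d * (a - c) := by
  induction d with
  | zero => intro B _; simp [Ex_const]
  | succ d ih =>
    intro B h
    obtain ⟨B, rfl⟩ : ∃ B', B = B' + 1 := ⟨B - 1, by omega⟩
    simp only [Ex, List.take_succ_cons, List.all_cons, Bool.not_false, Bool.true_and, Bool.not_true,
      Bool.false_and, Bool.cond_false, Ex_const]
    rw [ih B (by omega), pow_succ]
    ring

section chain

variable {N : ℕ} (Ba : Finset (Fin N) → Prop) (E : Finset (Fin N) → ℕ)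

/-- Exchange. -/
def mv (ω : Finset (Fin N)) (a b : Fin N) : Finset (Fin N) := insert b (ω.erase a)

open Classical in
/-- One Metropolis step given the two proposed sites and the acceptance coins. -/
noncomputable def cst' (i j : ℕ) (z : List Bool) (ω : Finset (Fin N)) : Finset (Fin N) :=
  if h : i < N ∧ j < N then
    if (⟨_, h.1⟩ ∈ ω ∧ ⟨_, h.2⟩ ∉ ω ∧ Ba (mv ω ⟨_, h.1⟩ ⟨_, h.2⟩)) ∧
      (z.take (E (mv ω ⟨_, h.1⟩ ⟨_, h.2⟩) - E ω)).all (!·) = true
    then mv ω ⟨_, h.1⟩ ⟨_, h.2⟩ else ω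
  else ω

/-- One Metropolis step. -/
noncomputable def cst (m : ℕ) (w : List Bool) (ω : Finset (Fin N)) : Finset (Fin N) :=
  cst' Ba E (ofBits (w.take m)) (ofBits ((w.drop m).take m)) ((w.drop m).drop m) ω

open Classical in
/-- Acceptance rates. -/
noncomputable def acc (ω : Finset (Fin N)) (a b : Fin N) : ℝ :=
  if a ∈ ω ∧ b ∉ ω ∧ Ba (mv ω a b) then (1 / 2) ^ (E (mv ω a b) - E ω) else 0

/-- The transition operator. -/
noncomputable def tr (m B : ℕ) (h : Finset (Fin N) → ℝ) (ω : Finset (Fin N)) : ℝ :=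
  Ex (m + (m + B)) fun w => h (cst Ba E m w ω)

variable {Ba E}

theorem cst_mem {m : ℕ} {ω : Finset (Fin N)} (h : Ba ω) (w : List Bool) : Ba (cst Ba E m w ω) := by
  unfold cst cst'
  split_ifs with h1 h2
  · exact h2.1.2.2
  · exact h
  · exact h

theorem sum_dite {W : ℕ} (h : N ≤ W) (φ : Fin N → ℝ) :
    ∑ x ∈ range W, (if c : x < N then φ ⟨x, c⟩ else 0) = ∑ a, φ a := by
  rw [← sum_subset (range_subset_range.2 h) fun x _ hx => dif_neg (by simpa using hx),
    ← Fin.sum_univ_eq_sum_range (fun x => if c : x < N then φ ⟨x, c⟩ else 0)]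
  simp

theorem tr_eq {m B : ℕ} (hm : N ≤ 2 ^ m) (hB : ∀ ω, E ω ≤ B) (h : Finset (Fin N) → ℝ)
    (ω : Finset (Fin N)) : tr Ba E m B h ω =
      h ω + (1 / 4) ^ m * ∑ a, ∑ b, acc Ba E ω a b * (h (mv ω a b) - h ω) := by
  set φ : ℕ → ℕ → ℝ := fun i j => h ω + if c : i < N then if d : j < N then
    acc Ba E ω ⟨i, c⟩ ⟨j, d⟩ * (h (mv ω ⟨i, c⟩ ⟨j, d⟩) - h ω) else 0 else 0 with hφ
  have key : ∀ u, u.length = m → ∀ v, v.length = m →
      Ex B (fun z => h (cst Ba E m (u ++ (v ++ z)) ω)) = φ (ofBits u) (ofBits v) := by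
    intro u hu v hv
    simp only [cst, List.take_left' hu, List.drop_left' hu, List.take_left' hv, List.drop_left' hv, hφ]
    generalize ofBits u = i
    generalize ofBits v = j
    unfold cst'
    by_cases c : i < N
    · by_cases d : j < N
      · simp only [c, d, and_self, dite_true, acc]
        split_ifs with e
        · rw [← Ex_acc _ _ _ B ((Nat.sub_le _ _).trans (hB _))]
          refine Ex_congr _ fun z _ => ?_
          simp only [e, not_false_eq_true, and_self, true_and]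
          cases (List.take _ z).all (!·) <;> simp
        · simp [e, Ex_const]
      · simp [c, d, Ex_const]
    · simp [c, Ex_const]
  have k2 : ∀ u, u.length = m → (Ex (m + B) fun v => h (cst Ba E m (u ++ v) ω)) =
      (fun i => (∑ j ∈ range (2 ^ m), φ i j) / 2 ^ m) (ofBits u) := fun u hu => by
    rw [Ex_add, Ex_congr _ fun v hv => key u hu v hv]
    exact Ex_bits m (φ (ofBits u))
  rw [tr, Ex_add, Ex_congr _ k2, Ex_bits m fun i => (∑ j ∈ range (2 ^ m), φ i j) / 2 ^ m]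
  simp only [hφ]
  simp only [sum_add_distrib, sum_const, card_range, nsmul_eq_mul, ← sum_div]
  rw [← sum_dite hm, sum_congr rfl (g := fun i => if c : i < N then
    ∑ b, acc Ba E ω ⟨i, c⟩ b * (h (mv ω ⟨i, c⟩ b) - h ω) else 0) fun i _ => by
      split_ifs with c
      · exact sum_dite hm fun b => acc Ba E ω ⟨i, c⟩ b * (h (mv ω ⟨i, c⟩ b) - h ω)
      · simp, show (1 / 4 : ℝ) ^ m = 1 / (2 ^ m * 2 ^ m) by rw [← mul_pow, one_div_pow]; norm_num]
  push_cast
  field_simp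

theorem acc_nonneg (ω : Finset (Fin N)) (a b : Fin N) : 0 ≤ acc Ba E ω a b := by
  unfold acc
  split_ifs <;> positivity

theorem mv_mv {ω : Finset (Fin N)} {a b : Fin N} (ha : a ∈ ω) (hb : b ∉ ω) : mv (mv ω a b) b a = ω := by
  rw [mv, mv, erase_insert (by simp [hb]), insert_erase ha]

variable {π : Finset (Fin N) → ℝ}

open Classical in
theorem stat (hπ : ∀ ω, π ω = if Ba ω then (1 / 2) ^ E ω else 0) (h : Finset (Fin N) → ℝ) :
    ∑ ω, π ω * ∑ a, ∑ b, acc Ba E ω a b * (h (mv ω a b) - h ω) = 0 := by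
  have e : ∀ G : Finset (Fin N) → Fin N → Fin N → ℝ, ∑ ω, π ω * ∑ a, ∑ b, acc Ba E ω a b * G ω a b =
      ∑ p ∈ univ.filter (fun p : Finset (Fin N) × Fin N × Fin N => Ba p.1 ∧ p.2.1 ∈ p.1 ∧ p.2.2 ∉ p.1 ∧
        Ba (mv p.1 p.2.1 p.2.2)), (1 / 2) ^ max (E p.1) (E (mv p.1 p.2.1 p.2.2)) * G p.1 p.2.1 p.2.2 := by
    intro G
    simp only [sum_filter, Fintype.sum_prod_type, mul_sum]
    refine sum_congr rfl fun ω _ => sum_congr rfl fun a _ => sum_congr rfl fun b _ => ?_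
    rw [hπ, acc]
    by_cases c : Ba ω
    · simp only [c, if_true, true_and]
      split_ifs
      · rw [← mul_assoc, ← pow_add, add_tsub_eq_max]
      · simp
    · simp [c]
  simp only [mul_sub, sum_sub_distrib]
  rw [e fun ω a b => h (mv ω a b), e fun ω _ _ => h ω, sub_eq_zero]
  refine sum_nbij' (fun p => (mv p.1 p.2.1 p.2.2, p.2.2, p.2.1)) (fun p => (mv p.1 p.2.1 p.2.2, p.2.2, p.2.1))
    ?_ ?_ ?_ ?_ ?_ <;> simp only [mem_filter, mem_univ, true_and] <;> rintro ⟨ω, a, b⟩ ⟨h1, h2, h3, h4⟩ <;>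
    simp only [mv_mv h2 h3]
  · exact ⟨h4, by simp [mv], by simp [mv]; rintro rfl; exact h3 h2, h1⟩
  · exact ⟨h4, by simp [mv], by simp [mv]; rintro rfl; exact h3 h2, h1⟩
  · rw [max_comm]

open Classical in
theorem dir_ge (hπ : ∀ ω, π ω = if Ba ω then (1 / 2) ^ E ω else 0) (g : Finset (Fin N) → ℝ) :
    ∃ c, En π g c ≤ ∑ ω, π ω * ∑ a, ∑ b, acc Ba E ω a b * (g (mv ω a b) - g ω) ^ 2 := by
  have ex : ∀ S : Finset (Fin N), ∃ T, ∀ a ∉ S, ∃ b ∉ S, T = insert b S ∧ π (insert a S) ≤ π T := by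
    intro S
    rcases (Sᶜ).eq_empty_or_nonempty with e | e
    · exact ⟨S, fun a ha => absurd (mem_compl.2 ha) (by simp [e])⟩
    · obtain ⟨b, hb, h⟩ := exists_max_image Sᶜ (fun a => π (insert a S)) e
      exact ⟨_, fun a ha => ⟨b, mem_compl.1 hb, rfl, h a (mem_compl.2 ha)⟩⟩
  choose T hT using ex
  refine ⟨fun S => g (T S), sum_le_sum fun ω _ => ?_⟩
  by_cases c : Ba ω
  · refine mul_le_mul_of_nonneg_left ?_ (by rw [hπ, if_pos c]; positivity)
    have nn : ∀ a b, 0 ≤ acc Ba E ω a b * (g (mv ω a b) - g ω) ^ 2 := fun a b =>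
      mul_nonneg (acc_nonneg _ _ _) (sq_nonneg _)
    refine le_trans (sum_le_sum fun a ha => ?_) (sum_le_sum_of_subset_of_nonneg (subset_univ ω)
      fun a _ _ => sum_nonneg fun b _ => nn a b)
    obtain ⟨b, hb, h1, h2⟩ := hT (ω.erase a) a (notMem_erase _ _)
    rw [insert_erase ha, hπ, hπ, if_pos c, h1] at h2
    beta_reduce
    rw [h1]
    by_cases e : b = a
    · rw [e, insert_erase ha, sub_self, zero_pow two_ne_zero]
      exact sum_nonneg fun b _ => nn a b
    refine le_trans (le_of_eq ?_) (single_le_sum (fun b _ => nn a b) (mem_univ b))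
    split_ifs at h2 with d
    · have := (pow_le_pow_iff_right_of_lt_one₀ (by norm_num) (by norm_num)).1 h2
      rw [acc, if_pos ⟨ha, by simpa [e] using hb, d⟩, mv, Nat.sub_eq_zero_of_le this]
      ring
    · exact absurd h2 (not_le.2 (by positivity))
  · simp [hπ, c]

open Classical in
theorem tr_step (hπ : ∀ ω, π ω = if Ba ω then (1 / 2) ^ E ω else 0) {m B : ℕ} (hm : 2 * N ≤ 2 ^ m)
    (hB : ∀ ω, E ω ≤ B) {C : ℝ} (hC : 0 < C) (hP : Poin π C) (g : Finset (Fin N) → ℝ) (θ : ℝ)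
    (h0 : ∑ ω, π ω * (g ω - θ) = 0) : ∑ ω, π ω * (tr Ba E m B g ω - θ) = 0 ∧
      ∑ ω, π ω * (tr Ba E m B g ω - θ) ^ 2 ≤ (1 - (1 / 4) ^ m / (2 * C)) * ∑ ω, π ω * (g ω - θ) ^ 2 := by
  have hm' : N ≤ 2 ^ m := by omega
  have nn : ∀ ω, 0 ≤ π ω := fun ω => by rw [hπ]; split_ifs <;> positivity
  set κ : ℝ := (1 / 4) ^ m with hκ
  have k0 : 0 < κ := by positivity
  constructor
  · simp only [tr_eq hm' hB, add_sub_right_comm, mul_add, sum_add_distrib, mul_left_comm (π _),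
      ← mul_sum, stat hπ, h0, mul_zero, add_zero]
  have pt : ∀ ω, (tr Ba E m B g ω - θ) ^ 2 ≤ (g ω - θ) ^ 2 +
      κ * ∑ a, ∑ b, acc Ba E ω a b * ((g (mv ω a b) - θ) ^ 2 - (g ω - θ) ^ 2) -
      κ / 2 * ∑ a, ∑ b, acc Ba E ω a b * (g (mv ω a b) - g ω) ^ 2 := fun ω => by
    rw [tr_eq hm' hB, ← hκ]
    simp only [← Fintype.sum_prod_type']
    have a1 := sum_sq_le_sum_mul_sum_of_sq_le_mul (univ : Finset (Fin N × Fin N))
      (r := fun p => acc Ba E ω p.1 p.2 * (g (mv ω p.1 p.2) - g ω)) (f := fun p => acc Ba E ω p.1 p.2)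
      (g := fun p => acc Ba E ω p.1 p.2 * (g (mv ω p.1 p.2) - g ω) ^ 2) (fun _ _ => acc_nonneg _ _ _)
      (fun _ _ => mul_nonneg (acc_nonneg _ _ _) (sq_nonneg _)) fun _ _ => le_of_eq (by ring)
    have a2 : κ * ∑ p : Fin N × Fin N, acc Ba E ω p.1 p.2 ≤ 1 / 2 := by
      have b1 : ∑ p : Fin N × Fin N, acc Ba E ω p.1 p.2 ≤ N * N := by
        simpa using sum_le_card_nsmul univ (fun p : Fin N × Fin N => acc Ba E ω p.1 p.2) 1 fun p _ => by
          unfold acc
          split_ifs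
          · exact pow_le_one₀ (by norm_num) (by norm_num)
          · norm_num
      have b2 : (2 * N : ℝ) ≤ 2 ^ m := by exact_mod_cast hm
      have b3 : κ * (2 ^ m * 2 ^ m) = 1 := by rw [hκ, ← mul_pow, ← mul_pow]; norm_num
      have b4 := mul_le_mul b2 b2 (by positivity) (by positivity)
      nlinarith [mul_le_mul_of_nonneg_left b1 k0.le, mul_le_mul_of_nonneg_left b4 k0.le]
    have a3 : ∑ p : Fin N × Fin N, acc Ba E ω p.1 p.2 * ((g (mv ω p.1 p.2) - θ) ^ 2 - (g ω - θ) ^ 2) =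
        2 * (g ω - θ) * ∑ p : Fin N × Fin N, acc Ba E ω p.1 p.2 * (g (mv ω p.1 p.2) - g ω) +
          ∑ p : Fin N × Fin N, acc Ba E ω p.1 p.2 * (g (mv ω p.1 p.2) - g ω) ^ 2 := by
      rw [mul_sum, ← sum_add_distrib]
      exact sum_congr rfl fun _ _ => by ring
    have a4 : 0 ≤ ∑ p : Fin N × Fin N, acc Ba E ω p.1 p.2 * (g (mv ω p.1 p.2) - g ω) ^ 2 :=
      sum_nonneg fun _ _ => mul_nonneg (acc_nonneg _ _ _) (sq_nonneg _)
    rw [a3]
    nlinarith [mul_le_mul_of_nonneg_left a1 (sq_nonneg κ),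
      mul_le_mul_of_nonneg_right a2 (mul_nonneg k0.le a4)]
  have a1 := sum_le_sum fun ω (_ : ω ∈ univ) => mul_le_mul_of_nonneg_left (pt ω) (nn ω)
  simp only [mul_sub (π _), mul_add, sum_add_distrib, sum_sub_distrib, mul_left_comm (π _), ← mul_sum,
    stat hπ fun ω => (g ω - θ) ^ 2] at a1
  obtain ⟨c, hc⟩ := dir_ge hπ g
  have a2 := hP (fun ω => g ω - θ) (fun S => c S - θ) h0
  simp only [En, sub_sub_sub_cancel_right] at a2
  have a3 := mul_le_mul_of_nonneg_left (a2.trans (mul_le_mul_of_nonneg_left hc hC.le))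
    (show 0 ≤ κ / (2 * C) by positivity)
  rw [← mul_assoc, show κ / (2 * C) * C = κ / 2 by field_simp] at a3
  linarith

open Classical in
theorem tr_iter (hπ : ∀ ω, π ω = if Ba ω then (1 / 2) ^ E ω else 0) {m B : ℕ} (hm : 2 * N ≤ 2 ^ m)
    (hB : ∀ ω, E ω ≤ B) {C : ℝ} (hC : 0 < C) (hP : Poin π C) (g : Finset (Fin N) → ℝ)
    (hg : ∀ ω, 0 ≤ g ω ∧ g ω ≤ 1) {ω0 : Finset (Fin N)} (h0 : Ba ω0) (t : ℕ) :
    ((tr Ba E m B)^[t] g ω0 - (∑ ω, π ω * g ω) / ∑ ω, π ω) ^ 2 ≤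
      Real.exp (-(t * ((1 / 4) ^ m / (2 * C)))) * 2 ^ (N + B) := by
  have nn : ∀ ω, 0 ≤ π ω := fun ω => by rw [hπ]; split_ifs <;> positivity
  have p0 : (1 / 2) ^ B ≤ π ω0 := by
    rw [hπ, if_pos h0]
    exact pow_le_pow_of_le_one (by norm_num) (by norm_num) (hB _)
  have hZ : 0 < ∑ ω, π ω :=
    (lt_of_lt_of_le (by positivity) p0).trans_le (single_le_sum (fun ω _ => nn ω) (mem_univ ω0))
  have Z1 : ∑ ω, π ω ≤ 2 ^ N := by
    simpa using sum_le_card_nsmul univ π 1 fun ω _ => by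
      rw [hπ]
      split_ifs
      · exact pow_le_one₀ (by norm_num) (by norm_num)
      · norm_num
  set θ := (∑ ω, π ω * g ω) / ∑ ω, π ω with hθ
  have t0 : 0 ≤ θ := div_nonneg (sum_nonneg fun ω _ => mul_nonneg (nn ω) (hg ω).1) hZ.le
  have t1 : θ ≤ 1 := (div_le_one hZ).2 (sum_le_sum fun ω _ => mul_le_of_le_one_right (nn ω) (hg ω).2)
  have key : ∑ ω, π ω * ((tr Ba E m B)^[t] g ω - θ) = 0 ∧ ∑ ω, π ω * ((tr Ba E m B)^[t] g ω - θ) ^ 2 ≤
      Real.exp (-(t * ((1 / 4) ^ m / (2 * C)))) * ∑ ω, π ω := by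
    induction t with
    | zero =>
      refine ⟨?_, ?_⟩
      · simp only [Function.iterate_zero, id, mul_sub, sum_sub_distrib, ← sum_mul, hθ]
        field_simp
        ring
      · simp only [Function.iterate_zero, id, Nat.cast_zero, zero_mul, neg_zero, Real.exp_zero, one_mul]
        exact sum_le_sum fun ω _ => mul_le_of_le_one_right (nn ω) (by nlinarith [hg ω])
    | succ t ih =>
      rw [Function.iterate_succ_apply']
      obtain ⟨a, b⟩ := tr_step hπ hm hB hC hP _ θ ih.1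
      refine ⟨a, b.trans ?_⟩
      rw [Nat.cast_succ, add_mul, neg_add, Real.exp_add, mul_comm (Real.exp _), mul_assoc, one_mul]
      exact mul_le_mul (by linarith [Real.add_one_le_exp (-((1 / 4) ^ m / (2 * C)))]) ih.2
        (sum_nonneg fun ω _ => mul_nonneg (nn ω) (sq_nonneg _)) (Real.exp_pos _).le
  have a1 := (single_le_sum (fun ω _ => mul_nonneg (nn ω) (sq_nonneg _)) (mem_univ ω0)).trans
    (key.2.trans (mul_le_mul_of_nonneg_left Z1 (Real.exp_pos _).le))
  have a2 := mul_le_mul_of_nonneg_right ((mul_le_mul_of_nonneg_right p0 (sq_nonneg _)).trans a1)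
    (show (0 : ℝ) ≤ 2 ^ B by positivity)
  rwa [mul_right_comm, ← mul_pow, show (1 / 2 * 2 : ℝ) = 1 by norm_num, one_pow, one_mul, mul_assoc,
    ← pow_add] at a2

end chain

end Vale.Agent.P317
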