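import Vale.Agent.P317.Batch
import Vale.Agent.P317.Algo

/-! Semantics of the machine. -/

namespace Vale.Agent.P317

open Finset Vale.Agent.Common.TreeTM Vale.Agent.P337

section kern

variable (O : Bool × List Bool → Bool) (p : Par)

/-- One instruction, answered by the oracle. -/
def stp (i : ℕ × ℕ) (s : St) (v : List Bool) : St := upd p i s v (O (qry p i s v))

/-- Expected value after a list of instructions. -/
noncomputable def Kn : List (ℕ × ℕ) → (St → ℝ) → St → ℝ
  | [], G, s => G s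
  | i :: is, G, s => Ex (bb p) fun v => Kn is G (stp O p i s v)

variable {O p}

theorem Kn_append (a b : List (ℕ × ℕ)) (G : St → ℝ) : Kn O p (a ++ b) G = Kn O p a (Kn O p b G) := by
  induction a with
  | nil => rfl
  | cons i a ih => funext s; simp only [List.cons_append, Kn, ih]

theorem Kn_nonneg (a : List (ℕ × ℕ)) {G : St → ℝ} (h : ∀ s, 0 ≤ G s) : ∀ s, 0 ≤ Kn O p a G s := by
  induction a with
  | nil => exact h
  | cons i a ih => exact fun s => (Ex_const _ 0).ge.trans (Ex_mono _ fun _ _ => ih _)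

theorem replay (z : Mc) (k : ℕ) : (answers O (fun h => qq p (h.foldl (ms p) z)) k).foldl (ms p) z =
    (fun z => ms p z (O (qq p z)))^[k] z := by
  induction k with
  | zero => rfl
  | succ k ih => rw [answers, List.foldl_append, ih, Function.iterate_succ_apply']; rfl

theorem master (G : St → ℝ) (is : List (ℕ × ℕ)) : ∀ s k ρ, is.length ≤ k → bb p * is.length ≤ ρ →
    Ex ρ (fun c => G ((fun z => ms p z (O (qq p z)))^[k] (s, c, is)).1) = Kn O p is G s := by
  induction is with
  | nil =>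
    intro s k ρ _ _
    refine (Ex_congr _ fun c _ => ?_).trans (Ex_const ρ (G s))
    rw [Function.iterate_fixed rfl]
  | cons i is ih =>
    intro s k ρ h1 h2
    rw [List.length_cons] at h1 h2
    obtain ⟨k, rfl⟩ : ∃ k', k = k' + 1 := ⟨k - 1, by omega⟩
    rw [mul_add, mul_one] at h2
    obtain ⟨ρ, rfl⟩ : ∃ r, ρ = bb p + r := ⟨ρ - bb p, by omega⟩
    rw [Ex_add, Kn]
    refine Ex_congr _ fun u hu => ?_
    rw [← ih _ k ρ (by omega) (by omega)]
    refine Ex_congr _ fun v _ => ?_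
    simp only [Function.iterate_succ_apply, ms, qq, isCons, List.isEmpty_cons, Bool.not_false,
      Bool.cond_true, List.headD_cons, List.tail_cons, List.take_left' hu, List.drop_left' hu, stp]

end kern

variable {n P : ℕ} {U : List Bool}

theorem rg_eq {k : ℕ} (h : k ≤ U.length) : rg (n, P, U) k = List.range k := by
  simp [rg, idx, h]

theorem sum_rg (k : ℕ) (f : ℕ → ℕ) : ((List.range k).map f).sum = ∑ a : Fin k, f a := by
  rw [Fin.sum_univ_eq_sum_range]
  induction k with
  | zero => rfl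
  | succ k ih => simp [List.range_succ, sum_range_succ, ih]

/-- The bit vector of a set. -/
def lst (ω : Finset (Fin (n + n))) : List Bool :=
  (List.range (n + n)).map fun k => decide (∃ h : k < n + n, (⟨k, h⟩ : Fin _) ∈ ω)

theorem gb_lst (ω : Finset (Fin (n + n))) (a : Fin (n + n)) : gb (lst ω) a = decide (a ∈ ω) := by
  simp [gb, lst, List.getD_eq_getElem?_getD]

theorem gb_x (ω : Finset (Fin (n + n))) (e : Fin n) : gb (lst ω) e = decide (xx e ∈ ω) := gb_lst ω (xx e)
theorem gb_y (ω : Finset (Fin (n + n))) (e : Fin n) : gb (lst ω) (n + e) = decide (yy e ∈ ω) :=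
  gb_lst ω (yy e)

theorem mk_eq {f : ℕ → Bool} {ω : Finset (Fin (n + n))} (h : ∀ a : Fin (n + n), f a = decide (a ∈ ω)) :
    (List.range (n + n)).map f = lst ω :=
  List.map_congr_left fun k hk => by
    rw [List.mem_range] at hk
    simp [h ⟨k, hk⟩, hk]

/-- The energy in round `j`. -/
def EE (P L : ℕ) (ω0 : Finset (Fin (n + n))) (u : List ℕ) (j : ℕ) : Finset (Fin (n + n)) → ℕ :=
  eng (fun a => (if a ∈ ω0 then 0 else pin P j a) + u.countP (neq a))
    (fun a => if a ∈ ω0 then pin P j a else 0) L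

theorem dbl_lst (ω : Finset (Fin (n + n))) (e : Fin n) :
    dbl (n, P, U) (lst ω) e = decide (xx e ∈ ω ∧ yy e ∈ ω) := by simp [dbl, gb_x, gb_y]

theorem emp_lst (ω : Finset (Fin (n + n))) (e : Fin n) :
    emp (n, P, U) (lst ω) e = decide (xx e ∉ ω ∧ yy e ∉ ω) := by simp [emp, gb_x, gb_y]

theorem dif_lst (ω ω0 : Finset (Fin (n + n))) (a : Fin (n + n)) :
    dif (lst ω) (lst ω0) a = decide (¬(a ∈ ω ↔ a ∈ ω0)) := by
  by_cases c : a ∈ ω <;> simp [dif, gb_lst, c]

theorem lf_ex (e : Fin n) (ω : Finset (Fin (n + n))) : lf (ω.erase (xx e)) = (lf ω).erase e := by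
  ext; simp [lf, xx_inj.eq_iff]
theorem lf_ey (e : Fin n) (ω : Finset (Fin (n + n))) : lf (ω.erase (yy e)) = lf ω := by
  ext; simp [lf, xx_ne_yy]
theorem rt_ex (e : Fin n) (ω : Finset (Fin (n + n))) : rt (ω.erase (xx e)) = rt ω := by
  ext; simp [rt, (xx_ne_yy _ _).symm]
theorem rt_ey (e : Fin n) (ω : Finset (Fin (n + n))) : rt (ω.erase (yy e)) = insert e (rt ω) := by
  ext; simp [rt, yy_inj.eq_iff]; tauto

theorem xx_lt (e : Fin n) : ((xx e : Fin (n + n)) : ℕ) < n := e.2
theorem yy_ge (e : Fin n) : ¬((yy e : Fin (n + n)) : ℕ) < n := by simp [yy]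

variable {M₁ M₂ : Matroid (Fin n)}

theorem bas_mv {ω : Finset (Fin (n + n))} (h : Bas M₁ M₂ ω) (a b : Fin (n + n)) : a ∈ ω → b ∉ ω →
    (Bas M₁ M₂ (mv ω a b) ↔ ((a : ℕ) < n ↔ (b : ℕ) < n) ∧
      if (a : ℕ) < n then M₁.Indep (lf (mv ω a b)) else M₂.Indep (rt (mv ω a b))) := by
  have h1 := (base_iff _ _).1 h.1
  have h2 := (base_iff _ _).1 h.2
  have mx : ∀ e, e ∈ lf ω ↔ xx e ∈ ω := by simp [lf]
  have my : ∀ e, e ∈ rt ω ↔ yy e ∉ ω := by simp [rt]
  induction a using cases_xy with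
  | h1 i =>
    induction b using cases_xy with
    | h1 j =>
      intro ha hb
      have := card_pos.2 ⟨i, (mx i).2 ha⟩
      simp only [Bas, base_iff, indep_iff, xx_lt, if_true, mv, lf_x, rt_x, lf_ex, rt_ex, true_and,
        card_insert_of_notMem fun c => hb ((mx j).1 (mem_of_mem_erase c)), card_erase_of_mem ((mx i).2 ha)]
      omega
    | h2 j =>
      intro ha hb
      have := card_pos.2 ⟨i, (mx i).2 ha⟩
      simp only [Bas, base_iff, xx_lt, yy_ge, mv, lf_y, lf_ex, card_erase_of_mem ((mx i).2 ha), iff_false,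
        not_true, false_and]
      omega
  | h2 i =>
    induction b using cases_xy with
    | h1 j =>
      intro ha hb
      simp only [Bas, base_iff, xx_lt, yy_ge, mv, lf_x, lf_ey, card_insert_of_notMem (mt (mx j).1 hb),
        iff_false, not_true, false_and, false_iff]
      omega
    | h2 j =>
      intro ha hb
      simp only [Bas, base_iff, indep_iff, yy_ge, if_false, mv, lf_y, rt_y, lf_ey, rt_ey, true_and,
        card_insert_of_notMem fun c => (my i).1 c ha, card_erase_of_mem (mem_insert_of_mem ((my j).2 hb))]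
      omega

variable (hU : n + n ≤ U.length)
include hU

theorem trv_lst (ω : Finset (Fin (n + n))) :
    trv (n, P, U) (lst ω) = decide (∀ e, ¬(xx e ∈ ω ∧ yy e ∈ ω)) := by
  rw [trv, rg_eq (by omega), Bool.eq_iff_iff, List.all_eq_true, decide_eq_true_iff]
  refine ⟨fun h e => ?_, fun h e he => ?_⟩
  · simpa only [dbl_lst, Bool.not_eq_true', decide_eq_false_iff_not] using h e (by simp)
  · rw [List.mem_range] at he
    simpa only [Bool.not_eq_true', ← decide_eq_false_iff_not, ← dbl_lst (P := P) (U := U)] using h ⟨e, he⟩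

theorem en_lst (ω0 ω : Finset (Fin (n + n))) (m : List (List Bool)) (u : List ℕ) (r : List ℕ × Bool)
    (j : ℕ) : en (n, P, U) (lst ω0, m, u, r) j (lst ω) = EE P (LL (n, P, U)) ω0 u j ω := by
  simp only [en, rg_eq hU, rg_eq (show n ≤ U.length by omega), sum_rg, EE, eng, ci, co, gb_lst, dbl_lst,
    Bool.cond_decide]

theorem qry_lst {i : ℕ × ℕ} {s : St} {v : List Bool} {ω : Finset (Fin (n + n))}
    (h : prp (n, P, U) i s v = lst ω) : oracle M₁ M₂ (qry (n, P, U) i s v) = true ↔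
      if side (n, P, U) i v then M₁.Indep (lf ω) else M₂.Indep (rt ω) := by
  classical
  rw [oracle, decide_eq_true_iff, qry, h, rg_eq (by omega)]
  cases side (n, P, U) i v
  · simp only [Bool.false_eq_true, if_false]
    rw [iff_iff_eq]
    congr 1
    ext e
    simp [List.getD_eq_getElem?_getD, gb_y, rt]
  · simp only [if_true]
    rw [iff_iff_eq]
    congr 1
    ext e
    simp [List.getD_eq_getElem?_getD, gb_x, lf]

theorem ok_iff {ω : Finset (Fin (n + n))} (h : Bas M₁ M₂ ω) (ω0 : Finset (Fin (n + n)))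
    (m : List (List Bool)) (u : List ℕ) (r : List ℕ × Bool) (j : ℕ) (v : List Bool) (a b : Fin (n + n))
    (ha : pa (n, P, U) v = a) (hb : pb (n, P, U) v = b) :
    prp (n, P, U) (2, j) (lst ω0, lst ω :: m, u, r) v = lst (mv ω a b) ∧
    (ok (n, P, U) (2, j) (lst ω0, lst ω :: m, u, r) v
      (oracle M₁ M₂ (qry (n, P, U) (2, j) (lst ω0, lst ω :: m, u, r) v)) = true ↔
      (a ∈ ω ∧ b ∉ ω ∧ Bas M₁ M₂ (mv ω a b)) ∧ (((v.drop (LL (n, P, U))).drop (LL (n, P, U))).take
        (EE P (LL (n, P, U)) ω0 u j (mv ω a b) - EE P (LL (n, P, U)) ω0 u j ω)).all (!·) = true) := by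
  have e : prp (n, P, U) (2, j) (lst ω0, lst ω :: m, u, r) v = lst (mv ω a b) := by
    rw [prp, rg_eq hU, ha, hb]
    refine mk_eq fun c => ?_
    simp [neq, gb_lst, mv, Fin.val_inj]
  have g3 := qry_lst hU (M₁ := M₁) (M₂ := M₂) e
  refine ⟨e, ?_⟩
  rw [side, ha] at g3
  rw [ok, ha, hb, e]
  generalize oracle M₁ M₂ (qry (n, P, U) (2, j) (lst ω0, lst ω :: m, u, r) v) = o at *
  simp only [List.headD_cons, en_lst hU, Bool.and_eq_true, g3, gb_lst, nlt, Fin.is_lt,
    show neq 2 0 = false from rfl, Bool.cond_false, decide_eq_true_iff, true_and, Bool.not_eq_true',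
    decide_eq_false_iff_not, Bool.cond_decide]
  refine and_congr_left' (and_congr_right fun x => and_congr_right fun y => ?_)
  rw [bas_mv h a b x y]
  split_ifs with z <;> simp [z]

theorem stp_step {ω : Finset (Fin (n + n))} (h : Bas M₁ M₂ ω) (ω0 : Finset (Fin (n + n)))
    (m : List (List Bool)) (u : List ℕ) (r : List ℕ × Bool) (j : ℕ) (v : List Bool) :
    stp (oracle M₁ M₂) (n, P, U) (2, j) (lst ω0, lst ω :: m, u, r) v = (lst ω0,
      lst (cst (Bas M₁ M₂) (EE P (LL (n, P, U)) ω0 u j) (LL (n, P, U)) v ω) :: m, u, r) := by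
  simp only [stp, upd, show neq 2 0 = false from rfl, show neq 2 1 = false from rfl,
    show neq 2 2 = true from rfl, Bool.cond_false, Bool.cond_true, List.tail_cons, cst, cst']
  congr 2
  split_ifs with c d
  · obtain ⟨e, k⟩ := ok_iff hU h ω0 m u r j v ⟨_, c.1⟩ ⟨_, c.2⟩ rfl rfl
    rw [k.2 d, Bool.cond_true, e]
  · rw [Bool.eq_false_iff.2 (mt (ok_iff hU h ω0 m u r j v ⟨_, c.1⟩ ⟨_, c.2⟩ rfl rfl).2.1 d), Bool.cond_false]
  · cases k : ok _ _ _ _ _
    · rfl
    rw [ok, Bool.and_eq_true, Bool.and_eq_true] at k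
    exact absurd ⟨of_decide_eq_true k.1.1, of_decide_eq_true k.1.2⟩ c

theorem Kn_steps (G : St → ℝ) (ω0 : Finset (Fin (n + n))) (m : List (List Bool)) (u : List ℕ)
    (r : List ℕ × Bool) (j : ℕ) (T : List ℕ) : ∀ ω, Bas M₁ M₂ ω →
    Kn (oracle M₁ M₂) (n, P, U) (T.map fun _ => (2, j)) G (lst ω0, lst ω :: m, u, r) =
      (tr (Bas M₁ M₂) (EE P (LL (n, P, U)) ω0 u j) (LL (n, P, U)) (P ^ 4))^[T.length]
        (fun ω' => G (lst ω0, lst ω' :: m, u, r)) ω := by
  induction T with
  | nil => exact fun _ _ => rfl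
  | cons t T ih =>
    intro ω h
    rw [List.map_cons, Kn, List.length_cons, Function.iterate_succ_apply', tr]
    exact Ex_congr _ fun v _ => by rw [stp_step hU h, ih _ (cst_mem h v)]

theorem Kn_batch (G : St → ℝ) {ω0 : Finset (Fin (n + n))} (h : Bas M₁ M₂ ω0) (u : List ℕ)
    (r : List ℕ × Bool) (j : ℕ) (T M : List ℕ) : ∀ l : List (Finset (Fin (n + n))),
    Kn (oracle M₁ M₂) (n, P, U) (M.flatMap fun _ => (1, j) :: T.map fun _ => (2, j)) G
      (lst ω0, l.map lst, u, r) = Bt (fun g => (tr (Bas M₁ M₂) (EE P (LL (n, P, U)) ω0 u j)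
        (LL (n, P, U)) (P ^ 4))^[T.length] g ω0) M.length (fun l' => G (lst ω0, l'.map lst, u, r)) l := by
  induction M with
  | nil => exact fun _ => rfl
  | cons t M ih =>
    intro l
    rw [List.flatMap_cons, List.cons_append, Kn, List.length_cons, Bt, Kn_append]
    refine (Ex_congr _ fun v _ => ?_).trans (Ex_const _ _)
    simp only [stp, upd, show neq 1 0 = false from rfl, show neq 1 1 = true from rfl, Bool.cond_false,
      Bool.cond_true, rg_eq hU, mk_eq (gb_lst ω0), Kn_steps hU _ _ _ _ _ _ _ _ h, ← ih, List.map_cons]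

theorem Kn_rnd (hM : P ^ 12 ≤ U.length) (hT : P ^ 13 ≤ U.length) (G : St → ℝ) {ω0 : Finset (Fin (n + n))}
    (h : Bas M₁ M₂ ω0) (u : List ℕ) (r : List ℕ × Bool) (j : ℕ) :
    Kn (oracle M₁ M₂) (n, P, U) (rnd (n, P, U) j) G (lst ω0, [], u, r) =
      Bt (fun g => (tr (Bas M₁ M₂) (EE P (LL (n, P, U)) ω0 u j) (LL (n, P, U)) (P ^ 4))^[P ^ 13] g ω0)
        (P ^ 12) (fun l => G (endr (n, P, U) j (lst ω0, l.map lst, u, r))) [] := by
  have := Kn_batch hU (P := P) (Kn (oracle M₁ M₂) (n, P, U) [(3, j)] G) h u r j (List.range (P ^ 13))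
    (List.range (P ^ 12)) []
  rw [List.length_range, List.length_range, List.map_nil] at this
  rw [rnd, MM, rg_eq hM, rg_eq hT, Kn_append, this]
  congr 1
  funext l
  exact Ex_const _ (G (endr (n, P, U) j (lst ω0, l.map lst, u, r)))

omit hU in
/-- The greedy invariant. -/
def GI (M : Matroid (Fin n)) (S : Finset (Fin n)) (k : ℕ) : Prop :=
  M.Indep S ∧ ∀ e : Fin n, (e : ℕ) < k → e ∉ S → ¬M.Indep (insert e S : Finset (Fin n))

omit hU in
theorem GI.step {M : Matroid (Fin n)} {S : Finset (Fin n)} {e : Fin n} (h : GI M S e) :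
    (M.Indep (insert e S : Finset (Fin n)) → GI M (insert e S) (e + 1)) ∧
      (¬M.Indep (insert e S : Finset (Fin n)) → GI M S (e + 1)) := by
  refine ⟨fun c => ⟨c, fun f h1 h2 h3 => ?_⟩, fun c => ⟨h.1, fun f h1 h2 => ?_⟩⟩
  · rw [mem_insert, not_or, Fin.ext_iff] at h2
    exact h.2 f (by omega) h2.2 (h3.subset (coe_subset.2 (insert_subset_insert _ (subset_insert _ _))))
  · by_cases d : f = e
    · rwa [d]
    · exact h.2 f (by rw [Fin.ext_iff] at d; omega) h2

theorem Kn_greedy (G : St → ℝ) (c : ℝ) (r : List (List Bool) × List ℕ × List ℕ × Bool)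
    (hG : ∀ ω, Bas M₁ M₂ ω → c ≤ G (lst ω, r)) (t : ℕ) : ∀ k ω, k + t = n + n → GI M₁ (lf ω) k →
    GI M₂ (rt ω) (k - n) → c ≤ Kn (oracle M₁ M₂) (n, P, U) ((List.range' k t).map fun k => (0, k)) G
      (lst ω, r) := by
  induction t with
  | zero =>
    intro k ω e h1 h2
    exact hG ω ⟨h1.1.isBase_of_forall_insert fun e he => by
      simpa using h1.2 e (by omega) (by simpa using he.2), h2.1.isBase_of_forall_insert fun e he => by
      simpa using h2.2 e (by omega) (by simpa using he.2)⟩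
  | succ t ih =>
    intro k ω e h1 h2
    rw [List.range'_succ, List.map_cons, Kn]
    refine (Ex_const _ c).ge.trans (Ex_mono _ fun v _ => ?_)
    obtain ⟨a, rfl⟩ : ∃ a : Fin (n + n), k = a := ⟨⟨k, by omega⟩, rfl⟩
    have e1 : prp (n, P, U) (0, a) (lst ω, r) v = lst (if (a : ℕ) < n then insert a ω else ω.erase a) := by
      rw [prp, rg_eq hU]
      refine mk_eq fun b => ?_
      by_cases d : b = a
      · by_cases c : (a : ℕ) < n <;> simp [neq, nlt, d, c]
      · by_cases c : (a : ℕ) < n <;> simp [neq, nlt, Fin.val_ne_of_ne d, d, c, gb_lst]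
    have g := qry_lst hU (M₁ := M₁) (M₂ := M₂) e1
    simp only [stp, upd, show neq 0 0 = true from rfl, Bool.cond_true, side, nlt, decide_eq_true_iff,
      e1] at g ⊢
    generalize oracle M₁ M₂ (qry (n, P, U) (0, a) (lst ω, r) v) = o at g
    induction a using cases_xy with
    | h1 i =>
      simp only [xx_lt, if_true, lf_x] at g ⊢
      have h3 : GI M₂ (rt ω) ((xx i : Fin (n + n)) + 1 - n) := ⟨h2.1, fun f hf => by
        have := xx_lt i
        omega⟩
      cases o
      · exact ih _ _ (by omega) ((GI.step (e := i) h1).2 fun c => by simpa using g.2 c) h3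
      · exact ih _ _ (by omega) (lf_x i ω ▸ (GI.step (e := i) h1).1 (g.1 rfl)) (rt_x i ω ▸ h3)
    | h2 i =>
      simp only [yy_ge, if_false, rt_ey] at g ⊢
      have h3 : GI M₁ (lf ω) ((yy i : Fin (n + n)) + 1) := ⟨h1.1, fun f hf => h1.2 f (by
        have := yy_ge i
        omega)⟩
      have e2 : ((yy i : Fin (n + n)) : ℕ) - n = i := by simp [yy]
      have e3 : ((yy i : Fin (n + n)) : ℕ) + 1 - n = i + 1 := by simp [yy]; omega
      rw [e2] at h2
      cases o
      · exact ih _ _ (by omega) h3 (e3 ▸ h2.step.2 fun c => by simpa using g.2 c)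
      · exact ih _ _ (by omega) (lf_ey i ω ▸ h3) (e3 ▸ rt_ey i ω ▸ h2.step.1 (g.1 rfl))

end Vale.Agent.P317
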